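import Vale.Agent.P042.H972.FamL
import Mathlib.Analysis.SpecialFunctions.Log.Base

/-!
P042 [D], power regime: the list of MEI families with ranges depending on `P`: orders up to
`P ^ a1`, scales up to `8 P ^ C1` (the primes are at most `P ^ C1`), third index up to `P ^ a3`.
-/

namespace Vale.Agent.P042.H972

open Finset
open Vale.Agent.P042.H599 (bwt FamOk)

/-- the families of the power regime -/
noncomputable def famP (Kc CK K0 : ℕ) (C1 a1 a3 g cB P : ℝ) : H599.Fam (ℕ × ℕ × ℕ) :=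
  famL Kc CK K0 ⌊P ^ C1⌋₊ ⌊P ^ a1⌋₊ (⌊C1 * Real.logb 2 P⌋₊ + 3) ⌊P ^ a3⌋₊ g cB P

theorem mem_famP {Kc CK K0 : ℕ} {C1 a1 a3 g cB P : ℝ} (hC1 : 0 ≤ C1) (hP : 1 ≤ P)
    {f : ℕ × ℕ × ℕ} : f ∈ (famP Kc CK K0 C1 a1 a3 g cB P).F ↔
      (1 ≤ f.1 ∧ (f.1 : ℝ) ≤ P ^ a1) ∧ (1 ≤ f.2.1 ∧ (2 : ℝ) ^ f.2.1 ≤ 8 * P ^ C1) ∧
        (1 ≤ f.2.2 ∧ (f.2.2 : ℝ) ≤ P ^ a3) := by
  have h0 : 0 ≤ Real.logb 2 P := Real.logb_nonneg (by norm_num) hP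
  have h00 : 0 ≤ C1 * Real.logb 2 P := mul_nonneg hC1 h0
  have hfl : ⌊C1 * Real.logb 2 P⌋₊ + 3 = ⌊C1 * Real.logb 2 P + 3⌋₊ := by
    have := Nat.floor_add_natCast h00 3
    push_cast at this
    rw [this]
  unfold famP
  rw [mem_famL, hfl, Nat.le_floor_iff (by positivity), Nat.le_floor_iff (by positivity),
    Nat.le_floor_iff (by positivity)]
  have h1 : (f.2.1 : ℝ) ≤ C1 * Real.logb 2 P + 3 ↔ (2 : ℝ) ^ f.2.1 ≤ 8 * P ^ C1 := by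
    have h2 : 8 * P ^ C1 = (2 : ℝ) ^ (C1 * Real.logb 2 P + 3) := by
      rw [Real.rpow_add (by norm_num), mul_comm C1, Real.rpow_mul (by norm_num),
        Real.rpow_logb (by norm_num) (by norm_num) (by linarith)]
      norm_num
      ring
    rw [h2, ← Real.rpow_natCast, Real.rpow_le_rpow_left_iff (by norm_num)]
  rw [h1]

/-- the primes of the families -/
theorem mem_famP_W {Kc CK K0 : ℕ} {C1 a1 a3 g cB P : ℝ} (hP : 0 ≤ P) {f : ℕ × ℕ × ℕ} {p : ℕ} :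
    p ∈ (famP Kc CK K0 C1 a1 a3 g cB P).W f ↔
      p.Prime ∧ K0 < p ∧ (p : ℝ) ≤ P ^ C1 ∧ p ≤ 2 ^ f.2.1 := by
  show p ∈ WL K0 ⌊P ^ C1⌋₊ f.2.1 ↔ _
  rw [mem_WL, Nat.le_floor_iff (Real.rpow_nonneg hP _)]

theorem famP_pr {Kc CK K0 : ℕ} {C1 a1 a3 g cB P : ℝ} (hP : 0 ≤ P)
    {f : ℕ × ℕ × ℕ} {p : ℕ}
    (hp : p ∈ (famP Kc CK K0 C1 a1 a3 g cB P).W f) : p.Prime ∧ K0 < p ∧ (p : ℝ) ≤ P ^ C1 := by
  obtain ⟨h1, h2, h3, _⟩ := (mem_famP_W hP).1 hp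
  exact ⟨h1, h2, h3⟩

/-- the constants of the families -/
theorem famP_K {Kc CK K0 : ℕ} {C1 a1 a3 g cB P : ℝ} (hC1 : 1 ≤ C1)
    (hKP : (Kc : ℝ) * C1 ^ CK * 5 ^ CK ≤ P) (hP : 1 ≤ P) {f : ℕ × ℕ × ℕ}
    (hf : f ∈ (famP Kc CK K0 C1 a1 a3 g cB P).F) :
    (((famP Kc CK K0 C1 a1 a3 g cB P).K f : ℕ) : ℝ) ≤ P ^ (1 + (a1 + a3 + 1) * CK) := by
  obtain ⟨⟨h1, h1'⟩, ⟨h2, h2'⟩, ⟨h3, h3'⟩⟩ := (mem_famP (by linarith) hP).1 hf
  have hP0 : 0 < P := by linarith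
  have hj : (f.2.1 : ℝ) ≤ C1 * 5 * P := by
    have h4 := Real.log_le_log (by positivity) h2'
    have h8 : Real.log 8 = 3 * Real.log 2 := by
      rw [show (8 : ℝ) = 2 ^ 3 by norm_num, Real.log_pow]
      norm_num
    rw [Real.log_pow, Real.log_mul (by norm_num) (by positivity), Real.log_rpow hP0, h8] at h4
    have h5 : Real.log P ≤ P := (Real.log_le_sub_one_of_pos hP0).trans (by linarith)
    have h6 : (1 : ℝ) / 2 ≤ Real.log 2 := by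
      have := Real.one_sub_inv_le_log_of_pos (show (0 : ℝ) < 2 by norm_num)
      norm_num at this ⊢
      linarith
    have h9 : (f.2.1 : ℝ) ≤ 3 + 2 * (C1 * P) := by
      have e1 : C1 * Real.log P ≤ C1 * P := mul_le_mul_of_nonneg_left h5 (by linarith)
      have e2 : 0 ≤ C1 * P := by positivity
      by_contra hcon
      push Not at hcon
      have e3 : 0 ≤ (f.2.1 : ℝ) - 3 := by linarith
      have e4 := mul_le_mul_of_nonneg_left h6 e3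
      nlinarith
    have e5 : 1 ≤ C1 * P := one_le_mul_of_one_le_of_one_le hC1 hP
    linarith
  show ((KL Kc CK f : ℕ) : ℝ) ≤ _
  unfold KL
  push_cast
  have h4 : (f.1 : ℝ) * f.2.1 * f.2.2 ≤ C1 * 5 * P ^ (a1 + a3 + 1) := by
    have h5 : P ^ (a1 + a3 + 1) = P ^ a1 * P ^ a3 * P := by
      rw [Real.rpow_add hP0, Real.rpow_add hP0, Real.rpow_one]
    rw [h5]
    calc (f.1 : ℝ) * f.2.1 * f.2.2 ≤ P ^ a1 * (C1 * 5 * P) * P ^ a3 := by gcongr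
      _ = _ := by ring
  calc (Kc : ℝ) * ((f.1 : ℝ) * f.2.1 * f.2.2) ^ CK
      ≤ Kc * (C1 * 5 * P ^ (a1 + a3 + 1)) ^ CK := by gcongr
    _ = (Kc * C1 ^ CK * 5 ^ CK) * (P ^ (a1 + a3 + 1)) ^ CK := by ring
    _ ≤ P * (P ^ (a1 + a3 + 1)) ^ CK := by gcongr
    _ = P ^ (1 + (a1 + a3 + 1) * CK) := by
        rw [Real.rpow_add hP0 1, Real.rpow_one, Real.rpow_mul hP0.le, Real.rpow_natCast]

/-- **everything about the families, for large `P`** -/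
theorem famP_ev {Kc CK : ℕ} (hKc : 1 ≤ Kc) {C1 a1 a3 cB : ℝ} (hC1 : 1 ≤ C1)
    (ha1 : 0 ≤ a1) (ha3 : 0 ≤ a3) (hc0 : 0 ≤ cB) (hc1 : cB ≤ 1 / 4) (K0 : ℕ) (g : ℝ) :
    ∃ A P0 : ℝ, 1 ≤ A ∧ 1 ≤ P0 ∧ ∀ P : ℝ, P0 ≤ P → FamOk (famP Kc CK K0 C1 a1 a3 g cB P) (MmP P) ∧
      (∀ f ∈ (famP Kc CK K0 C1 a1 a3 g cB P).F, ∀ p ∈ (famP Kc CK K0 C1 a1 a3 g cB P).W f,
        p.Prime ∧ K0 < p ∧ (p : ℝ) ≤ P ^ C1) ∧
      (∀ f ∈ (famP Kc CK K0 C1 a1 a3 g cB P).F,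
        (((famP Kc CK K0 C1 a1 a3 g cB P).K f : ℕ) : ℝ) ≤ P ^ A) ∧
      (∀ f ∈ (famP Kc CK K0 C1 a1 a3 g cB P).F,
        (((famP Kc CK K0 C1 a1 a3 g cB P).B f : ℕ) : ℝ) ≤ Real.exp (cB * P)) ∧
      (∀ f ∈ (famP Kc CK K0 C1 a1 a3 g cB P).F,
        Real.log ((famP Kc CK K0 C1 a1 a3 g cB P).B f : ℕ) ≤ P) := by
  refine ⟨1 + (a1 + a3 + 1) * CK, max 1 ((Kc : ℝ) * C1 ^ CK * 5 ^ CK), ?_, le_max_left _ _,
    fun P hP => ?_⟩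
  · have : 0 ≤ (a1 + a3 + 1) * (CK : ℝ) := by positivity
    linarith
  · have hP1 : 1 ≤ P := (le_max_left _ _).trans hP
    have hKP : (Kc : ℝ) * C1 ^ CK * 5 ^ CK ≤ P := (le_max_right _ _).trans hP
    have hok : FamOk (famP Kc CK K0 C1 a1 a3 g cB P) (MmP P) :=
      famL_ok hKc (by linarith) hc0 hc1
    have hB : ∀ f ∈ (famP Kc CK K0 C1 a1 a3 g cB P).F,
        (((famP Kc CK K0 C1 a1 a3 g cB P).B f : ℕ) : ℝ) ≤ Real.exp (cB * P) :=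
      fun f hf => famL_B hKc (by linarith) hc0 hf
    refine ⟨hok, fun f _ p hp => famP_pr (by linarith) hp,
      fun f hf => famP_K hC1 hKP hP1 hf, hB, fun f hf => ?_⟩
    have h1 : (0 : ℝ) < (famP Kc CK K0 C1 a1 a3 g cB P).B f := by exact_mod_cast hok.hB f hf
    have h2 := Real.log_le_log h1 (hB f hf)
    rw [Real.log_exp] at h2
    have h3 : cB * P ≤ 1 / 4 * P := mul_le_mul_of_nonneg_right hc1 (by linarith)
    linarith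

end Vale.Agent.P042.H972
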