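import Vale.Agent.P042.H972.PwBase

/-!
P042 [D], power regime: generic facts on the core law, the numbers of the assembly, and the state
theorem from the fields at one maximiser (any functional).
-/

namespace Vale.Agent.P042.H972

open Finset Polynomial Vale.Agent.P042.H599 Vale.Agent.P042.H945 Vale.Agent.P042.H739

/-! ### the core law at any maximiser -/

variable {ι : Type} {Q : Par ι} {N : ℕ} {A0 : Finset ℤ} {L : ℝ} {d M : ℕ} {a : ℤ} {x : ℕ → ℝ}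

theorem core_beta (hm : Mx Q N A0 d a M x L) :
    1 - Real.exp (-(Q.D0 / 4)) ≤ ms x M (fun n => M * x n ≤ Real.exp (Q.D0 / 2)) ∧
      ms x M (fun n => M * x n ≤ Real.exp (Q.D0 / 2)) ≤ 1 ∧
      1 / 2 ≤ ms x M (fun n => M * x n ≤ Real.exp (Q.D0 / 2)) := by
  have hlaw := hm.mx.1.law
  have h1 := ms_compl hlaw (fun n => M * x n ≤ Real.exp (Q.D0 / 2))
  have h2 := ms_le_of hlaw (S := fun n => ¬ (M * x n ≤ Real.exp (Q.D0 / 2)))
    (T := fun n => Real.exp (Q.D0 / 2) < M * x n) (fun n hn => not_le.1 hn)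
  have h3 := cut_small hm.ok hm.mx hm.base hm.hD0
  have h4 := ms_le_one hlaw (fun n => M * x n ≤ Real.exp (Q.D0 / 2))
  have h5 := hm.hD2
  exact ⟨by linarith, h4, by linarith⟩

theorem core_law' (hm : Mx Q N A0 d a M x L) : Law (core x M Q.D0) 1 M :=
  rst_law hm.mx.1.law (by linarith [(core_beta hm).2.2])

theorem core_out (n : ℕ) (D0 : ℝ) (h : core x M D0 n ≠ 0) : x n ≠ 0 := (rst_ne h).2

theorem core_cap (hm : Mx Q N A0 d a M x L) (n : ℕ) :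
    M * core x M Q.D0 n ≤ 2 * Real.exp (Q.D0 / 2) := by
  obtain ⟨h1, h2, h3⟩ := core_beta hm
  have hE := Real.exp_pos (Q.D0 / 2)
  unfold core
  by_cases h : M * x n ≤ Real.exp (Q.D0 / 2)
  · rw [rst_val (S := fun n => M * x n ≤ Real.exp (Q.D0 / 2)) h, ← mul_div_assoc,
      div_le_iff₀ (by linarith)]
    have h4 : 2 * Real.exp (Q.D0 / 2) * (1 / 2) ≤ 2 * Real.exp (Q.D0 / 2) *
        ms x M (fun n => M * x n ≤ Real.exp (Q.D0 / 2)) :=
      mul_le_mul_of_nonneg_left h3 (by linarith)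
    linarith
  · rw [rst_val0 (S := fun n => M * x n ≤ Real.exp (Q.D0 / 2)) h, mul_zero]
    linarith

/-! ### the numbers -/

/-- the smallest length -/
noncomputable def MmP (P : ℝ) : ℕ := ⌈Real.exp (P / 4)⌉₊

theorem MmP_ge (P : ℝ) : Real.exp (P / 4) ≤ MmP P := Nat.le_ceil _

theorem MmP_le (P : ℝ) (hP : 0 ≤ P) : (MmP P : ℝ) ≤ 2 * Real.exp (P / 4) := by
  have h1 := (Nat.ceil_lt_add_one (Real.exp_pos (P / 4)).le).le
  have h2 : 1 ≤ Real.exp (P / 4) := Real.one_le_exp (by linarith)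
  unfold MmP
  linarith

/-- **the numbers**: `D0 = c1 P`, `L = c P`, `E1 ≤ A P^(1 - s)` -/
theorem num_pw {s A κ eta c1 : ℝ} (hs : 0 < s) (hA : 0 ≤ A) (hκ : 0 < κ) (he : 0 < eta)
    (hc1 : 0 < c1) :
    ∃ c2 : ℝ, 0 < c2 ∧ ∀ c : ℝ, 0 < c → c ≤ c2 → ∃ P0 : ℝ, ∀ P : ℝ, P0 ≤ P →
      1 ≤ P ∧ c1 * P / 2 + 1 ≤ (c1 / 2 + κ / 2) * P ∧
      ∀ E1 : ℝ, E1 ≤ A * P ^ (1 - s) →
      0 ≤ c * P ∧ 2 * (c * P) + 3 * E1 < c1 * P / 8 ∧
      Real.exp (-(c1 * P / 4)) ≤ 1 / 2 ∧ (c * P + E1) / eta + Real.log 2 ≤ κ * P := by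
  obtain ⟨P2, hP2⟩ := Filter.eventually_atTop.1
    ((tendsto_rpow_atTop hs).eventually_ge_atTop (A * (4 / (κ * eta) + 120 / c1)))
  refine ⟨min (c1 / 40) (κ * eta / 4), by positivity, fun c hc hcc => ?_⟩
  have hca : c ≤ c1 / 40 := hcc.trans (min_le_left _ _)
  have hcb : c ≤ κ * eta / 4 := hcc.trans (min_le_right _ _)
  refine ⟨max (max P2 (4 / c1)) (max 2 (4 / κ)), fun P hP => ?_⟩
  have hPb : P2 ≤ P := (le_max_left _ _).trans ((le_max_left _ _).trans hP)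
  have hPe : 4 / c1 ≤ P := (le_max_right _ _).trans ((le_max_left _ _).trans hP)
  have hPc : 2 ≤ P := (le_max_left _ _).trans ((le_max_right _ _).trans hP)
  have hPd : 4 / κ ≤ P := (le_max_right _ _).trans ((le_max_right _ _).trans hP)
  have hP0 : 0 < P := by linarith
  rw [div_le_iff₀ hκ] at hPd
  rw [div_le_iff₀ hc1] at hPe
  have hcP : c * P ≤ c1 / 40 * P := mul_le_mul_of_nonneg_right hca hP0.le
  have h4 := hP2 P hPb
  have h5 : P ^ (1 - s) * P ^ s = P := by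
    rw [← Real.rpow_add hP0]; simp
  have h6 : 0 < P ^ (1 - s) := Real.rpow_pos_of_pos hP0 _
  have h7 : P ^ (1 - s) * (A * (4 / (κ * eta) + 120 / c1)) ≤ P := by
    calc P ^ (1 - s) * (A * (4 / (κ * eta) + 120 / c1)) ≤ P ^ (1 - s) * P ^ s :=
          mul_le_mul_of_nonneg_left h4 h6.le
      _ = P := h5
  have h7' : A * P ^ (1 - s) * (4 / (κ * eta)) + A * P ^ (1 - s) * (120 / c1) ≤ P := by
    linarith
  have h70 : 0 ≤ A * P ^ (1 - s) := by positivity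
  have h71 : 0 ≤ A * P ^ (1 - s) * (4 / (κ * eta)) := by positivity
  have h72 : 0 ≤ A * P ^ (1 - s) * (120 / c1) := by positivity
  have h73 : A * P ^ (1 - s) ≤ κ * eta / 4 * P := by
    have h10 : A * P ^ (1 - s) = A * P ^ (1 - s) * (4 / (κ * eta)) * (κ * eta / 4) := by
      field_simp
    rw [h10]
    calc A * P ^ (1 - s) * (4 / (κ * eta)) * (κ * eta / 4) ≤ P * (κ * eta / 4) :=
          mul_le_mul_of_nonneg_right (by linarith) (by positivity)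
      _ = κ * eta / 4 * P := by ring
  have h74 : A * P ^ (1 - s) ≤ c1 / 120 * P := by
    have h10 : A * P ^ (1 - s) = A * P ^ (1 - s) * (120 / c1) * (c1 / 120) := by
      field_simp
    rw [h10]
    calc A * P ^ (1 - s) * (120 / c1) * (c1 / 120) ≤ P * (c1 / 120) :=
          mul_le_mul_of_nonneg_right (by linarith) (by positivity)
      _ = c1 / 120 * P := by ring
  have hc1P : 0 < c1 * P := by positivity
  refine ⟨by linarith, by linarith, fun E1 hE1 => ⟨by positivity, by linarith, ?_, ?_⟩⟩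
  · have h5 : Real.exp (-(c1 * P / 4)) ≤ Real.exp (-1) := Real.exp_le_exp.2 (by linarith)
    have h6 : Real.exp (-1) ≤ 1 / 2 := by
      rw [Real.exp_neg, inv_le_comm₀ (Real.exp_pos _) (by norm_num)]
      have := Real.add_one_le_exp (1 : ℝ)
      norm_num
      linarith
    exact h5.trans h6
  · have h8 : c * P ≤ κ * eta / 4 * P := mul_le_mul_of_nonneg_right hcb hP0.le
    have h10 : (c * P + E1) / eta ≤ κ * P / 2 := by
      rw [div_le_iff₀ he]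
      have : κ * P / 2 * eta = κ * eta / 4 * P + κ * eta / 4 * P := by ring
      linarith
    have h11 : Real.log 2 ≤ 1 := by
      have := Real.log_le_sub_one_of_pos (show (0 : ℝ) < 2 by norm_num); linarith
    linarith

theorem MmP_le_exp {P : ℝ} (hP : 2 ≤ P) : (MmP P : ℝ) ≤ Real.exp P := by
  have h8 := MmP_le P (by linarith)
  have h9 : (2 : ℝ) ≤ Real.exp 1 := by linarith [Real.add_one_le_exp (1 : ℝ)]
  calc (MmP P : ℝ) ≤ 2 * Real.exp (P / 4) := h8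
    _ ≤ Real.exp 1 * Real.exp (P / 4) := mul_le_mul_of_nonneg_right h9 (Real.exp_pos _).le
    _ = Real.exp (1 + P / 4) := (Real.exp_add _ _).symm
    _ ≤ Real.exp P := Real.exp_le_exp.2 (by linarith)

/-- **the state theorem of the power regime, generic functional**: `QF k R κ c1 P Hh lam` is the
functional, `F` the list of fields of the core law; it remains to prove `Ok` and the fields at one
maximiser. -/
theorem state6_gen {ι : Type} (eta : ℕ → ℝ → ℝ)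
    (QF : ℕ → ℕ → ℝ → ℝ → ℝ → (ℕ → ℤ[X]) → (ℕ → ℕ) → Par ι)
    (F : ℕ → ℕ → ℤ[X] → ℝ → ℝ → ℕ → (ℕ → ℝ) → Prop)
    (heta : ∀ (k : ℕ) (κ : ℝ), 2 ≤ k → 0 < κ → κ ≤ 1 / 8 → 0 < eta k κ)
    (HQ : ∀ (h : ℤ[X]) (lam : ℕ → ℕ) (r : ℕ → ℤ) (Hh : ℕ → ℤ[X]) (R : ℕ),
      AuxData h lam r Hh R → 2 ≤ h.natDegree → 0 < h.leadingCoeff →
      ∀ κ : ℝ, 0 < κ → κ ≤ 1 / 8 → ∃ c0 A s : ℝ, 0 < c0 ∧ 0 ≤ A ∧ 0 < s ∧
      ∀ c1 : ℝ, 0 < c1 → c1 ≤ c0 → ∃ P0 : ℝ, ∀ P : ℝ, P0 ≤ P →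
      Ok (QF h.natDegree R κ c1 P Hh lam) ∧ (QF h.natDegree R κ c1 P Hh lam).lam = lam ∧
      (QF h.natDegree R κ c1 P Hh lam).D0 = c1 * P ∧
      (QF h.natDegree R κ c1 P Hh lam).E1 ≤ A * P ^ (1 - s) ∧
      (QF h.natDegree R κ c1 P Hh lam).eta = eta h.natDegree κ ∧
      ((QF h.natDegree R κ c1 P Hh lam).Mm : ℝ) ≤ Real.exp P)
    (HF : ∀ (h : ℤ[X]) (lam : ℕ → ℕ) (r : ℕ → ℤ) (Hh : ℕ → ℤ[X]) (R : ℕ),
      AuxData h lam r Hh R → 2 ≤ h.natDegree → 0 < h.leadingCoeff →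
      ∀ κ : ℝ, 0 < κ → κ ≤ 1 / 8 → ∃ c0 : ℝ, 0 < c0 ∧ ∀ c1 : ℝ, 0 < c1 → c1 ≤ c0 →
      ∃ c2 : ℝ, 0 < c2 ∧ ∀ c : ℝ, 0 < c → c ≤ c2 → ∃ P0 : ℝ, ∀ P : ℝ, P0 ≤ P →
      ∀ (N : ℕ) (A0 : Finset ℤ) (d : ℕ) (a : ℤ) (M : ℕ) (x : ℕ → ℝ), Real.log N = P →
        Mx (QF h.natDegree R κ c1 P Hh lam) N A0 d a M x (c * P) →
        (1 - κ) * P ≤ Real.log M → Real.log M ≤ P →
        F h.natDegree R (Hh d) κ P M (core x M (c1 * P))) :
    STATE6 (StOf F) := by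
  refine state6_of F fun h lam r Hh R hAux hdeg hpos κ hκ hκ8 => ?_
  have he0 := heta h.natDegree κ hdeg hκ hκ8
  obtain ⟨c0, A, s, hc0, hA, hs, hOk⟩ := HQ h lam r Hh R hAux hdeg hpos κ hκ hκ8
  obtain ⟨c0', hc0', HF1⟩ := HF h lam r Hh R hAux hdeg hpos κ hκ hκ8
  obtain ⟨c1, hc1⟩ : ∃ c1, c1 = min (min c0 c0') κ := ⟨_, rfl⟩
  have hc1p : 0 < c1 := by rw [hc1]; exact lt_min (lt_min hc0 hc0') hκ
  have hc1a : c1 ≤ c0 := by rw [hc1]; exact (min_le_left _ _).trans (min_le_left _ _)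
  have hc1a' : c1 ≤ c0' := by rw [hc1]; exact (min_le_left _ _).trans (min_le_right _ _)
  have hc1b : c1 ≤ κ := by rw [hc1]; exact min_le_right _ _
  obtain ⟨Pa, hOk⟩ := hOk c1 hc1p hc1a
  obtain ⟨ca, hca, Hnum⟩ := num_pw hs hA hκ he0 hc1p
  obtain ⟨cb, hcb, HFc⟩ := HF1 c1 hc1p hc1a'
  obtain ⟨c, hc⟩ : ∃ c, c = min ca cb := ⟨_, rfl⟩
  have hcp : 0 < c := by rw [hc]; exact lt_min hca hcb
  obtain ⟨Pb, hnum⟩ := Hnum c hcp (by rw [hc]; exact min_le_left _ _)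
  obtain ⟨Pc, hF⟩ := HFc c hcp (by rw [hc]; exact min_le_right _ _)
  refine ⟨c, hcp, max Pa (max Pb Pc), fun P hP => ?_⟩
  have hPa : Pa ≤ P := (le_max_left _ _).trans hP
  have hPb : Pb ≤ P := (le_max_left _ _).trans ((le_max_right _ _).trans hP)
  have hPc : Pc ≤ P := (le_max_right _ _).trans ((le_max_right _ _).trans hP)
  obtain ⟨hP1, hP2, hnum⟩ := hnum P hPb
  have hP0 : 0 < P := by linarith
  obtain ⟨q1, q2, q3, q4, q5, q6⟩ := hOk P hPa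
  obtain ⟨Q, hQ⟩ : ∃ Q, Q = QF h.natDegree R κ c1 P Hh lam := ⟨_, rfl⟩
  rw [← hQ] at q1 q2 q3 q4 q5 q6
  obtain ⟨n0, n1, n2, n3⟩ := hnum Q.E1 q4
  refine ⟨ι, Q, q1, q2, ⟨n0, by rw [q3]; exact n1, by rw [q3]; exact n2, q6, by
    rw [q5]; exact n3⟩, ?_⟩
  intro N A0 d a M x hlog hm hlo hhi
  have hlaw := core_law' hm
  have hcap := core_cap hm
  rw [q3] at hlaw hcap
  refine ⟨core x M (c1 * P), hlaw, fun n hn => core_out n _ hn, fun n => ?_, ?_⟩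
  · refine (hcap n).trans ?_
    have h9 : (2 : ℝ) ≤ Real.exp 1 := by linarith [Real.add_one_le_exp (1 : ℝ)]
    have h10 : c1 * P ≤ κ * P := mul_le_mul_of_nonneg_right hc1b hP0.le
    calc 2 * Real.exp (c1 * P / 2) ≤ Real.exp 1 * Real.exp (c1 * P / 2) :=
          mul_le_mul_of_nonneg_right h9 (Real.exp_pos _).le
      _ = Real.exp (1 + c1 * P / 2) := (Real.exp_add _ _).symm
      _ ≤ Real.exp (κ * P) := Real.exp_le_exp.2 (by linarith)
  · rw [hQ] at hm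
    exact hF P hPc N A0 d a M x hlog hm hlo hhi

end Vale.Agent.P042.H972
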