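import Mathlib.Analysis.SpecialFunctions.Pow.Asymptotics
import Mathlib.Analysis.SpecialFunctions.Log.Basic

/-!
P042 [D], power regime: the inequalities which hold for all numbers larger than a threshold `K0`.
-/

namespace Vale.Agent.P042.H972

/-- **all thresholds of the exponents** -/
theorem thr_all (k : ℕ) {g gr gc b ga : ℝ} (hg : 0 < g) (hb : 0 < b) (hbc : b < gc)
    (hcr : g + gc ≤ gr) (hrb : gr + b < 1) (hga : ga < g) :
    ∃ K0 : ℕ, ∀ p : ℕ, K0 < p → 2 ≤ p ∧ 2 * k ≤ p ∧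
      (p : ℝ) ^ (-g) ≤ 1 / 8 ∧
      (p : ℝ) ^ (-g) + (p : ℝ) ^ (-gr) * (p : ℝ) ^ gc ≤ b / 16 * Real.log p ∧
      2 ≤ (p : ℝ) ^ (b / 4) ∧
      32 * (k : ℝ) ^ 2 * (p : ℝ) ^ b + 1 ≤ (p : ℝ) ^ gc ∧
      8 * (p : ℝ) ^ b ≤ (p : ℝ) ^ (-gr) * p ∧
      8 * ((p : ℝ) ^ (-g) + (p : ℝ) ^ (-gr) * (p : ℝ) ^ gc) ≤ (p : ℝ) ^ (-ga) := by
  have hgrc : gc < gr := by linarith
  have hga' : ga < gr - gc := by linarith
  have t1 : ∀ᶠ x : ℝ in Filter.atTop, 16 ≤ x ^ g :=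
    (tendsto_rpow_atTop hg).eventually_ge_atTop _
  have t2 : ∀ᶠ x : ℝ in Filter.atTop, 16 ≤ x ^ (gr - gc) :=
    (tendsto_rpow_atTop (by linarith)).eventually_ge_atTop _
  have t3 : ∀ᶠ x : ℝ in Filter.atTop, 32 / b ≤ Real.log x :=
    Real.tendsto_log_atTop.eventually_ge_atTop _
  have t4 : ∀ᶠ x : ℝ in Filter.atTop, 2 ≤ x ^ (b / 4) :=
    (tendsto_rpow_atTop (by positivity)).eventually_ge_atTop _
  have t5 : ∀ᶠ x : ℝ in Filter.atTop, 32 * (k : ℝ) ^ 2 + 1 ≤ x ^ (gc - b) :=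
    (tendsto_rpow_atTop (by linarith)).eventually_ge_atTop _
  have t6 : ∀ᶠ x : ℝ in Filter.atTop, 8 ≤ x ^ (1 - gr - b) :=
    (tendsto_rpow_atTop (by linarith)).eventually_ge_atTop _
  have t7 : ∀ᶠ x : ℝ in Filter.atTop, 16 ≤ x ^ (g - ga) :=
    (tendsto_rpow_atTop (by linarith)).eventually_ge_atTop _
  have t8 : ∀ᶠ x : ℝ in Filter.atTop, 16 ≤ x ^ (gr - gc - ga) :=
    (tendsto_rpow_atTop (by linarith)).eventually_ge_atTop _
  obtain ⟨X, hX⟩ := Filter.eventually_atTop.1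
    (t1.and (t2.and (t3.and (t4.and (t5.and (t6.and (t7.and t8)))))))
  refine ⟨max ⌈X⌉₊ (max 2 (2 * k)), fun p hp => ?_⟩
  have hpX : X ≤ p := (Nat.le_ceil X).trans
    (by exact_mod_cast ((le_max_left _ _).trans hp.le))
  have hp2 : 2 ≤ p := (le_max_left _ _).trans ((le_max_right _ _).trans hp.le)
  have hpk : 2 * k ≤ p := (le_max_right _ _).trans ((le_max_right _ _).trans hp.le)
  obtain ⟨s1, s2, s3, s4, s5, s6, s7, s8⟩ := hX p hpX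
  have hp1 : (1 : ℝ) ≤ p := by exact_mod_cast (by omega : 1 ≤ p)
  have hp0 : (0 : ℝ) < p := by linarith
  have e1 : (p : ℝ) ^ (-g) * (p : ℝ) ^ g = 1 := by
    rw [← Real.rpow_add hp0]; simp
  have e2 : (p : ℝ) ^ (-gr) * (p : ℝ) ^ gc * (p : ℝ) ^ (gr - gc) = 1 := by
    rw [← Real.rpow_add hp0, ← Real.rpow_add hp0]
    have : -gr + gc + (gr - gc) = 0 := by ring
    rw [this, Real.rpow_zero]
  have u1 : 0 < (p : ℝ) ^ (-g) := Real.rpow_pos_of_pos hp0 _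
  have u2 : 0 < (p : ℝ) ^ (-gr) * (p : ℝ) ^ gc := by positivity
  have v1 : (p : ℝ) ^ (-g) ≤ 1 / 16 := by nlinarith
  have v2 : (p : ℝ) ^ (-gr) * (p : ℝ) ^ gc ≤ 1 / 16 := by nlinarith
  have u3 : 0 < (p : ℝ) ^ b := Real.rpow_pos_of_pos hp0 _
  have hb1 : 1 ≤ (p : ℝ) ^ b := Real.one_le_rpow hp1 hb.le
  refine ⟨hp2, hpk, by linarith, ?_, s4, ?_, ?_, ?_⟩
  · rw [div_le_iff₀ hb] at s3
    linarith
  · have e3 : (p : ℝ) ^ gc = (p : ℝ) ^ b * (p : ℝ) ^ (gc - b) := by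
      rw [← Real.rpow_add hp0]; congr 1; ring
    rw [e3]
    have := mul_le_mul_of_nonneg_left s5 u3.le
    linarith
  · have e3 : (p : ℝ) ^ (-gr) * p = (p : ℝ) ^ b * (p : ℝ) ^ (1 - gr - b) := by
      have h1 : (p : ℝ) ^ (-gr) * p = (p : ℝ) ^ (-gr) * (p : ℝ) ^ (1 : ℝ) := by
        rw [Real.rpow_one]
      rw [h1, ← Real.rpow_add hp0, ← Real.rpow_add hp0]; congr 1; ring
    rw [e3]
    have := mul_le_mul_of_nonneg_left s6 u3.le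
    linarith
  · have u4 : 0 < (p : ℝ) ^ (-ga) := Real.rpow_pos_of_pos hp0 _
    have w1 : 16 * (p : ℝ) ^ (-g) ≤ (p : ℝ) ^ (-ga) := by
      have e3 : (p : ℝ) ^ (-ga) = (p : ℝ) ^ (-g) * (p : ℝ) ^ (g - ga) := by
        rw [← Real.rpow_add hp0]; congr 1; ring
      rw [e3]
      have := mul_le_mul_of_nonneg_left s7 u1.le
      linarith
    have w2 : 16 * ((p : ℝ) ^ (-gr) * (p : ℝ) ^ gc) ≤ (p : ℝ) ^ (-ga) := by
      have e3 : (p : ℝ) ^ (-ga) = (p : ℝ) ^ (-gr) * (p : ℝ) ^ gc * (p : ℝ) ^ (gr - gc - ga) := by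
        rw [← Real.rpow_add hp0, ← Real.rpow_add hp0]; congr 1; ring
      rw [e3]
      have := mul_le_mul_of_nonneg_left s8 u2.le
      linarith
    linarith

end Vale.Agent.P042.H972
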