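import Vale.Agent.P042.H362.StF
import Vale.Agent.P042.H972.ThrK
import Vale.Agent.P042.H972.FamP

/-!
P042 [D], power regime: existence of the parameters `FPOk` (362's conditions on the parameters of
the state) and of the families `FamP`.
-/

namespace Vale.Agent.P042.H972

open Finset Polynomial Vale.Agent.P042.H362

/-- **the parameters of the state exist**: `K0` large after `k, g, gr, gc, b, ga`; then
`C1, be, kp` free -/
theorem fpx (k : ℕ) {g gr gc b ga : ℝ} (hg : 0 < g) (hb : 0 < b) (hbc : b < gc)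
    (hcr : g + gc ≤ gr) (hrb : gr + b < 1) (hga0 : 0 < ga) (hga : ga < g) :
    ∃ K00 : ℕ, ∀ K0 : ℕ, K00 ≤ K0 → ∀ C1 be kp κ : ℝ, 1 ≤ C1 → 0 < be → be ≤ b / 2 →
      0 < kp → kp ≤ κ → kp ≤ 1 / k → kp ≤ g / (2560 * C1) →
      FPOk ⟨C1, K0, g, gr, gc, b, be, ga, kp⟩ k κ := by
  obtain ⟨K00, h⟩ := thr_all k hg hb hbc hcr hrb hga
  refine ⟨K00, fun K0 hK C1 be kp κ hC1 hbe hbeb hkp hkpκ hkpk hkpg => ?_⟩
  have hh : ∀ p : ℕ, K0 < p → K00 < p := fun p hp => lt_of_le_of_lt hK hp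
  exact
    { C11 := hC1
      g0 := hg
      g1 := by show g ≤ 1; linarith
      gc0 := by show 0 < gc; linarith
      cr := hcr
      gr1 := by show gr ≤ 1; linarith
      b0 := hb
      b1 := by show b ≤ 1; linarith
      be0 := hbe
      beb := hbeb
      ga0 := hga0
      ga1 := by show ga ≤ 1; linarith
      kp0 := hkp
      kpκ := hkpκ
      kpk := hkpk
      kpg := hkpg
      K1 := fun p hp => (h p (hh p hp)).2.2.1
      K2 := fun p hp => by
        have h1 := (h p (hh p hp)).2.2.2.2.2.2.2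
        have h2 : 0 ≤ (p : ℝ) ^ (-ga) := Real.rpow_nonneg (Nat.cast_nonneg _) _
        show (p : ℝ) ^ (-g) + (p : ℝ) ^ (-gr) * (p : ℝ) ^ gc ≤ (p : ℝ) ^ (-ga) / 4
        linarith
      K3 := fun p hp => (h p (hh p hp)).2.2.2.2.1
      K4 := fun p hp => (h p (hh p hp)).2.2.2.2.2.1
      K5 := fun p hp => (h p (hh p hp)).2.2.2.2.2.2.1 }

/-- **the families of the state**: `famP` with the primes of the state and the bound
`exp (kp P / 16)` of the products -/
theorem famI {q : FP} (hC1 : 1 ≤ q.C1) (hkp : 0 ≤ q.kp) (hkp1 : q.kp ≤ 4) (k R : ℕ) {Kc CK : ℕ}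
    (hKc : 1 ≤ Kc) {a1 a3 : ℝ} (ha1 : 0 ≤ a1) (ha3 : 0 ≤ a3) (g : ℝ) :
    FamP q k R (famP Kc CK (max (max q.K0 R) (2 * k)) q.C1 a1 a3 g (q.kp / 16)) := by
  classical
  obtain ⟨A, P0, hA, _, h⟩ := famP_ev (Kc := Kc) (CK := CK) hKc hC1 ha1 ha3
    (cB := q.kp / 16) (by positivity) (by linarith) (max (max q.K0 R) (2 * k)) g
  refine ⟨A, P0, hA, fun P hP => ?_⟩
  obtain ⟨h1, h2, h3, h4, h5⟩ := h P hP
  refine ⟨h1, fun i hi p hp => ?_, h3, fun i hi => ?_⟩
  · obtain ⟨e1, e2, e3⟩ := h2 i hi p hp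
    unfold WF
    refine mem_filter.2 ⟨mem_range.2 (Nat.lt_succ_of_le (Nat.le_floor e3)), e1, e2⟩
  · have h6 : (0 : ℝ) < (famP Kc CK (max (max q.K0 R) (2 * k)) q.C1 a1 a3 g (q.kp / 16) P).B i := by
      exact_mod_cast h1.hB i hi
    have h7 := Real.log_le_log h6 (h4 i hi)
    rw [Real.log_exp] at h7
    linarith

end Vale.Agent.P042.H972
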