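import Vale.Agent.P042.H362.MfE
import Vale.Agent.P042.H362.QlE
import Vale.Agent.P042.H972.AtEv
import Vale.Agent.P042.H972.FPx

/-!
P042 [D], power regime: the state theorem, assembled: `stateF` (any parameters and families with
362's conditions) and `stateP` (972's families `famP`).
-/

namespace Vale.Agent.P042.H972

open Polynomial Finset Vale.Agent.P042.H739 Vale.Agent.P042.H362

/-- **STATE6 of the power regime** -/
theorem stateF {κ' : Type} (par : ℕ → ℕ → ℝ → FP) (fam : ℕ → ℕ → ℝ → ℝ → H599.Fam κ')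
    (hpar : ∀ (k R : ℕ) (κ : ℝ), 2 ≤ k → 1 ≤ R → 0 < κ → κ ≤ 1 / 8 → FPOk (par k R κ) k κ)
    (hfam : ∀ (k R : ℕ) (κ : ℝ), 2 ≤ k → 1 ≤ R → 0 < κ → κ ≤ 1 / 8 →
      FamP (par k R κ) k R (fam k R κ)) : STATE6 (StF par fam) :=
  stateF_of atEv mfEv qlEv par fam hpar hfam

/-- the families of the state, as a function of the parameters -/
noncomputable def famF (Kc CK : ℕ) (a1 a3 : ℝ) (gf : ℕ → ℕ → ℝ → ℝ) (par : ℕ → ℕ → ℝ → FP)
    (k R : ℕ) (κ : ℝ) : ℝ → H599.Fam (ℕ × ℕ × ℕ) :=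
  famP Kc CK (max (max (par k R κ).K0 R) (2 * k)) (par k R κ).C1 a1 a3 (gf k R κ)
    ((par k R κ).kp / 16)

/-- **STATE6 of the power regime, families `famP`** -/
theorem stateP {Kc CK : ℕ} (hKc : 1 ≤ Kc) {a1 a3 : ℝ} (ha1 : 0 ≤ a1) (ha3 : 0 ≤ a3)
    (gf : ℕ → ℕ → ℝ → ℝ) (par : ℕ → ℕ → ℝ → FP)
    (hpar : ∀ (k R : ℕ) (κ : ℝ), 2 ≤ k → 1 ≤ R → 0 < κ → κ ≤ 1 / 8 → FPOk (par k R κ) k κ) :
    STATE6 (StF par (famF Kc CK a1 a3 gf par)) :=
  stateF par _ hpar fun k R κ hk hR hκ hκ8 => by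
    have h := hpar k R κ hk hR hκ hκ8
    exact famI h.C11 h.kp0.le (h.kpκ.trans (by linarith)) k R hKc ha1 ha3 (gf k R κ)

end Vale.Agent.P042.H972
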