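import Vale.Agent.P042.H599.HBP
import Vale.Agent.P042.H972.PwNum
import Mathlib.NumberTheory.Harmonic.Bounds

/-!
P042 [D], power regime: the concrete list of MEI families (order `m`, scale `2 ^ j`, size
`l` of the logarithm of the extra modulus).
-/

namespace Vale.Agent.P042.H972

open Finset
open Vale.Agent.P042.H599 (bwt FamOk)

/-- the constant of the family -/
def KL (Kc CK : ℕ) (f : ℕ × ℕ × ℕ) : ℕ := Kc * (f.1 * f.2.1 * f.2.2) ^ CK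

/-- primes in `(K0, min (2 ^ j) Y]` -/
def WL (K0 Y j : ℕ) : Finset ℕ :=
  (range (2 ^ j + 1)).filter fun p => p.Prime ∧ K0 < p ∧ p ≤ Y

/-- the rates -/
noncomputable def tL (Kc CK : ℕ) (g P : ℝ) (f : ℕ × ℕ × ℕ) (p : ℕ) : ℝ :=
  min 1 (P ^ (1 - g) / p) / KL Kc CK f

/-- the list of the families; the modulus of every term is at most `exp (cB P)` -/
noncomputable def famL (Kc CK K0 Y A1 A2 A3 : ℕ) (g cB P : ℝ) : H599.Fam (ℕ × ℕ × ℕ) where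
  F := Icc 1 A1 ×ˢ (Icc 1 A2 ×ˢ Icc 1 A3)
  W := fun f => WL K0 Y f.2.1
  t := tL Kc CK g P
  K := KL Kc CK
  B := fun f => ⌊Real.exp (cB * P / KL Kc CK f)⌋₊
  ω := fun f => 1 / (64 * ((f.1 * f.2.1 * f.2.2 : ℕ) : ℝ) ^ 2)

theorem mem_WL {K0 Y j p : ℕ} :
    p ∈ WL K0 Y j ↔ p.Prime ∧ K0 < p ∧ p ≤ Y ∧ p ≤ 2 ^ j := by
  unfold WL
  rw [mem_filter, mem_range, Nat.lt_succ_iff]
  tauto

theorem mem_famL {Kc CK K0 Y A1 A2 A3 : ℕ} {g cB P : ℝ} {f : ℕ × ℕ × ℕ} :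
    f ∈ (famL Kc CK K0 Y A1 A2 A3 g cB P).F ↔
      (1 ≤ f.1 ∧ f.1 ≤ A1) ∧ (1 ≤ f.2.1 ∧ f.2.1 ≤ A2) ∧ (1 ≤ f.2.2 ∧ f.2.2 ≤ A3) := by
  unfold famL
  simp only [mem_product, mem_Icc]

theorem sum_inv_sq_le (A : ℕ) : ∑ m ∈ Icc 1 A, 1 / ((m : ℝ) ^ 2) ≤ 2 := by
  have h : ∀ n : ℕ, ∑ m ∈ Icc 1 (n + 1), 1 / ((m : ℝ) ^ 2) ≤ 2 - 1 / ((n : ℝ) + 1) := by
    intro n
    induction n with
    | zero => norm_num
    | succ n ih =>
      rw [Finset.sum_Icc_succ_top (by omega)]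
      push_cast
      have h1 : 1 / ((n : ℝ) + 1 + 1) ^ 2 ≤ 1 / ((n : ℝ) + 1) - 1 / ((n : ℝ) + 1 + 1) := by
        have h2 : (0 : ℝ) < n + 1 := by positivity
        rw [div_sub_div _ _ h2.ne' (by positivity), div_le_div_iff₀ (by positivity) (by positivity)]
        nlinarith
      have h3 : ∑ m ∈ Icc 1 (n + 1), 1 / ((m : ℝ) ^ 2) ≤ 2 - 1 / ((n : ℝ) + 1) := ih
      linarith
  rcases Nat.eq_zero_or_pos A with h0 | h0
  · rw [h0]; simp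
  · obtain ⟨n, rfl⟩ : ∃ n, A = n + 1 := ⟨A - 1, by omega⟩
    refine (h n).trans ?_
    have : (0 : ℝ) ≤ 1 / ((n : ℝ) + 1) := by positivity
    linarith

/-- the sum of the weights is at most `1 / 8` -/
theorem famL_om (Kc CK K0 Y A1 A2 A3 : ℕ) (g cB P : ℝ) :
    ∑ f ∈ (famL Kc CK K0 Y A1 A2 A3 g cB P).F, (famL Kc CK K0 Y A1 A2 A3 g cB P).ω f ≤ 1 / 8 := by
  have h1 : ∑ f ∈ (famL Kc CK K0 Y A1 A2 A3 g cB P).F, (famL Kc CK K0 Y A1 A2 A3 g cB P).ω f =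
      ∑ m ∈ Icc 1 A1, ∑ j ∈ Icc 1 A2, ∑ l ∈ Icc 1 A3,
        (1 / 64) * (1 / ((m : ℝ) ^ 2) * (1 / ((j : ℝ) ^ 2) * (1 / ((l : ℝ) ^ 2)))) := by
    unfold famL
    simp only
    rw [sum_product]
    refine sum_congr rfl fun m _ => ?_
    rw [sum_product]
    refine sum_congr rfl fun j _ => sum_congr rfl fun l _ => ?_
    push_cast
    rw [one_div_mul_one_div, one_div_mul_one_div, one_div_mul_one_div]
    congr 1
    ring
  have h2 : ∑ m ∈ Icc 1 A1, ∑ j ∈ Icc 1 A2, ∑ l ∈ Icc 1 A3,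
        (1 / 64) * (1 / ((m : ℝ) ^ 2) * (1 / ((j : ℝ) ^ 2) * (1 / ((l : ℝ) ^ 2)))) =
      (1 / 64) * ((∑ m ∈ Icc 1 A1, 1 / ((m : ℝ) ^ 2)) * ((∑ j ∈ Icc 1 A2, 1 / ((j : ℝ) ^ 2)) *
        ∑ l ∈ Icc 1 A3, 1 / ((l : ℝ) ^ 2))) := by
    rw [sum_mul_sum, sum_mul, mul_sum]
    refine sum_congr rfl fun m _ => ?_
    rw [mul_sum, mul_sum]
    refine sum_congr rfl fun j _ => ?_
    rw [mul_sum, mul_sum]
  rw [h1, h2]
  have a1 := sum_inv_sq_le A1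
  have a2 := sum_inv_sq_le A2
  have a3 := sum_inv_sq_le A3
  have b1 : 0 ≤ ∑ m ∈ Icc 1 A1, 1 / ((m : ℝ) ^ 2) := sum_nonneg fun _ _ => by positivity
  have b2 : 0 ≤ ∑ m ∈ Icc 1 A2, 1 / ((m : ℝ) ^ 2) := sum_nonneg fun _ _ => by positivity
  have b3 : 0 ≤ ∑ m ∈ Icc 1 A3, 1 / ((m : ℝ) ^ 2) := sum_nonneg fun _ _ => by positivity
  have h3 : (∑ m ∈ Icc 1 A1, 1 / ((m : ℝ) ^ 2)) * ((∑ j ∈ Icc 1 A2, 1 / ((j : ℝ) ^ 2)) *
        ∑ l ∈ Icc 1 A3, 1 / ((l : ℝ) ^ 2)) ≤ 2 * (2 * 2) := by gcongr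
  linarith

theorem KL_pos {Kc CK : ℕ} (hKc : 1 ≤ Kc) {f : ℕ × ℕ × ℕ} (h1 : 1 ≤ f.1) (h2 : 1 ≤ f.2.1)
    (h3 : 1 ≤ f.2.2) : 1 ≤ KL Kc CK f := by
  unfold KL
  have : 0 < (f.1 * f.2.1 * f.2.2) ^ CK := by positivity
  exact Nat.mul_pos hKc this

theorem tL_nonneg {Kc CK : ℕ} {g P : ℝ} (hP : 0 ≤ P) (f : ℕ × ℕ × ℕ) (p : ℕ) :
    0 ≤ tL Kc CK g P f p := by
  unfold tL
  have h1 : 0 ≤ P ^ (1 - g) := Real.rpow_nonneg hP _
  have h2 : 0 ≤ min 1 (P ^ (1 - g) / (p : ℝ)) := le_min zero_le_one (by positivity)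
  positivity

theorem KtL_le {Kc CK : ℕ} {g P : ℝ} {f : ℕ × ℕ × ℕ} (hK : 1 ≤ KL Kc CK f) (p : ℕ) :
    KL Kc CK f * tL Kc CK g P f p ≤ 1 := by
  have h0 : (0 : ℝ) < KL Kc CK f := by exact_mod_cast hK
  unfold tL
  rw [mul_div_cancel₀ _ h0.ne']
  exact min_le_left _ _

theorem tL_le {Kc CK : ℕ} {g P : ℝ} {f : ℕ × ℕ × ℕ} (hK : 1 ≤ KL Kc CK f) (p : ℕ) :
    tL Kc CK g P f p ≤ 1 / KL Kc CK f := by
  have h0 : (0 : ℝ) < KL Kc CK f := by exact_mod_cast hK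
  rw [le_div_iff₀ h0, mul_comm]
  exact KtL_le hK p

theorem tL_le' {Kc CK : ℕ} {g P : ℝ} (f : ℕ × ℕ × ℕ) (p : ℕ) :
    tL Kc CK g P f p ≤ P ^ (1 - g) / KL Kc CK f * (1 / p) := by
  have h0 : (0 : ℝ) ≤ KL Kc CK f := Nat.cast_nonneg _
  unfold tL
  have h1 : min 1 (P ^ (1 - g) / (p : ℝ)) ≤ P ^ (1 - g) / (p : ℝ) := min_le_right _ _
  calc min 1 (P ^ (1 - g) / (p : ℝ)) / KL Kc CK f ≤ (P ^ (1 - g) / (p : ℝ)) / KL Kc CK f := by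
        gcongr
    _ = _ := by ring

/-- (1) the hypotheses on the families -/
theorem famL_ok {Kc CK K0 Y A1 A2 A3 : ℕ} (hKc : 1 ≤ Kc) {g cB P : ℝ} (hP : 0 ≤ P)
    (hc0 : 0 ≤ cB) (hc1 : cB ≤ 1 / 4) :
    FamOk (famL Kc CK K0 Y A1 A2 A3 g cB P) (MmP P) := by
  have hK : ∀ f ∈ (famL Kc CK K0 Y A1 A2 A3 g cB P).F, 1 ≤ KL Kc CK f := by
    intro f hf
    rw [mem_famL] at hf
    exact KL_pos hKc hf.1.1 hf.2.1.1 hf.2.2.1
  refine ⟨fun f _ => ?_, (famL_om Kc CK K0 Y A1 A2 A3 g cB P).trans (by norm_num), fun f _ p hp => ?_,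
    fun f _ p hp q hq hpq => ?_, fun f _ p _ => tL_nonneg hP f p, fun f hf p _ => ?_,
    fun f hf p _ => KtL_le (hK f hf) p, fun f _ => ?_, fun f hf => ?_⟩
  · show (0 : ℝ) ≤ 1 / (64 * ((f.1 * f.2.1 * f.2.2 : ℕ) : ℝ) ^ 2)
    positivity
  · exact (mem_WL.1 hp).1.pos
  · have hp' : p ∈ WL K0 Y f.2.1 := by exact_mod_cast hp
    have hq' : q ∈ WL K0 Y f.2.1 := by exact_mod_cast hq
    exact (Nat.coprime_primes (mem_WL.1 hp').1 (mem_WL.1 hq').1).2 hpq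
  · refine (tL_le (hK f hf) p).trans ?_
    have h0 : (1 : ℝ) ≤ KL Kc CK f := by exact_mod_cast hK f hf
    rw [div_le_one (by linarith)]
    exact h0
  · show 0 < ⌊Real.exp (cB * P / KL Kc CK f)⌋₊
    rw [Nat.floor_pos]
    exact Real.one_le_exp (by positivity)
  · show ⌊Real.exp (cB * P / KL Kc CK f)⌋₊ ^ KL Kc CK f ≤ MmP P
    have h0 : (0 : ℝ) < KL Kc CK f := by exact_mod_cast hK f hf
    have h1 : ((⌊Real.exp (cB * P / KL Kc CK f)⌋₊ : ℕ) : ℝ) ≤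
        Real.exp (cB * P / KL Kc CK f) := Nat.floor_le (Real.exp_pos _).le
    have h2 : (((⌊Real.exp (cB * P / KL Kc CK f)⌋₊) ^ KL Kc CK f : ℕ) : ℝ) ≤ MmP P := by
      push_cast
      calc ((⌊Real.exp (cB * P / KL Kc CK f)⌋₊ : ℕ) : ℝ) ^ KL Kc CK f
          ≤ Real.exp (cB * P / KL Kc CK f) ^ KL Kc CK f := by gcongr
        _ = Real.exp (cB * P) := by
            rw [← Real.exp_nat_mul]
            congr 1
            field_simp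
        _ ≤ Real.exp (P / 4) := Real.exp_le_exp.2 (by
            have := mul_le_mul_of_nonneg_right hc1 hP
            linarith)
        _ ≤ _ := MmP_ge P
    exact_mod_cast h2

/-- the moduli of the families are small -/
theorem famL_B {Kc CK K0 Y A1 A2 A3 : ℕ} (hKc : 1 ≤ Kc) {g cB P : ℝ} (hP : 0 ≤ P)
    (hc0 : 0 ≤ cB) {f : ℕ × ℕ × ℕ} (hf : f ∈ (famL Kc CK K0 Y A1 A2 A3 g cB P).F) :
    (((famL Kc CK K0 Y A1 A2 A3 g cB P).B f : ℕ) : ℝ) ≤ Real.exp (cB * P) := by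
  rw [mem_famL] at hf
  have hK : (1 : ℝ) ≤ KL Kc CK f := by exact_mod_cast KL_pos hKc hf.1.1 hf.2.1.1 hf.2.2.1
  show ((⌊Real.exp (cB * P / KL Kc CK f)⌋₊ : ℕ) : ℝ) ≤ _
  refine (Nat.floor_le (Real.exp_pos _).le).trans (Real.exp_le_exp.2 ?_)
  exact div_le_self (by positivity) hK

/-- the primes of the families lie in `W` -/
theorem famL_sub {Kc CK K0 Y A1 A2 A3 : ℕ} {g cB P : ℝ} {f : ℕ × ℕ × ℕ} {p : ℕ}
    (hp : p ∈ (famL Kc CK K0 Y A1 A2 A3 g cB P).W f) : p.Prime ∧ K0 < p ∧ p ≤ Y := by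
  have hp' : p ∈ WL K0 Y f.2.1 := hp
  obtain ⟨h1, h2, h3, _⟩ := mem_WL.1 hp'
  exact ⟨h1, h2, h3⟩

/-- the constant in front of the family -/
theorem famL_C0 {Kc CK K0 Y A1 A2 A3 : ℕ} (hCK : 2 ≤ CK) {g cB P : ℝ} {f : ℕ × ℕ × ℕ}
    (hf : f ∈ (famL Kc CK K0 Y A1 A2 A3 g cB P).F) :
    (famL Kc CK K0 Y A1 A2 A3 g cB P).ω f * (famL Kc CK K0 Y A1 A2 A3 g cB P).K f =
      Kc * ((f.1 * f.2.1 * f.2.2 : ℕ) : ℝ) ^ (CK - 2) / 64 := by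
  rw [mem_famL] at hf
  obtain ⟨⟨h1, _⟩, ⟨h2, _⟩, ⟨h3, _⟩⟩ := hf
  have h0 : 0 < f.1 * f.2.1 * f.2.2 := by positivity
  obtain ⟨x, hx⟩ : ∃ x, x = f.1 * f.2.1 * f.2.2 := ⟨_, rfl⟩
  have hxr : (0 : ℝ) < x := by rw [hx]; exact_mod_cast h0
  show 1 / (64 * ((f.1 * f.2.1 * f.2.2 : ℕ) : ℝ) ^ 2) * ((KL Kc CK f : ℕ) : ℝ) = _
  unfold KL
  rw [← hx]
  push_cast
  have h4 : (x : ℝ) ^ CK = (x : ℝ) ^ (CK - 2) * (x : ℝ) ^ 2 := by
    rw [← pow_add]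
    congr 1
    omega
  rw [h4]
  field_simp

/-! ### the sum of the rates -/

theorem sum_inv_le (n : ℕ) : ∑ m ∈ Icc (1 : ℕ) (2 ^ n), 1 / (m : ℝ) ≤ 1 + n := by
  have h1 := harmonic_le_one_add_log (2 ^ n)
  have h2 : ((harmonic (2 ^ n) : ℚ) : ℝ) = ∑ m ∈ Icc (1 : ℕ) (2 ^ n), 1 / (m : ℝ) := by
    rw [harmonic_eq_sum_Icc]
    push_cast
    exact sum_congr rfl fun m _ => by rw [one_div]
  rw [h2] at h1
  refine h1.trans ?_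
  have h3 : Real.log ((2 ^ n : ℕ) : ℝ) ≤ n := by
    push_cast
    rw [Real.log_pow]
    have h4 : Real.log 2 ≤ 1 := by
      have := Real.log_le_sub_one_of_pos (show (0 : ℝ) < 2 by norm_num); linarith
    have h5 : (0 : ℝ) ≤ n := Nat.cast_nonneg n
    nlinarith
  linarith

/-- (2) the sum of the rates -/
theorem famL_t1 {Kc CK K0 Y : ℕ} {g P : ℝ} (hP : 0 ≤ P) (f : ℕ × ℕ × ℕ) :
    ∑ p ∈ WL K0 Y f.2.1, tL Kc CK g P f p ≤ P ^ (1 - g) / KL Kc CK f * (1 + f.2.1) := by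
  have h0 : (0 : ℝ) ≤ P ^ (1 - g) / KL Kc CK f := by positivity
  calc ∑ p ∈ WL K0 Y f.2.1, tL Kc CK g P f p
      ≤ ∑ p ∈ WL K0 Y f.2.1, P ^ (1 - g) / KL Kc CK f * (1 / p) :=
        sum_le_sum fun p _ => tL_le' f p
    _ = P ^ (1 - g) / KL Kc CK f * ∑ p ∈ WL K0 Y f.2.1, 1 / (p : ℝ) := by rw [mul_sum]
    _ ≤ P ^ (1 - g) / KL Kc CK f * ∑ p ∈ Icc (1 : ℕ) (2 ^ f.2.1), 1 / (p : ℝ) := by
        refine mul_le_mul_of_nonneg_left ?_ h0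
        refine sum_le_sum_of_subset_of_nonneg (fun p hp => ?_) fun p _ _ => by positivity
        obtain ⟨h1, _, _, h3⟩ := mem_WL.1 hp
        exact mem_Icc.2 ⟨h1.one_le, h3⟩
    _ ≤ _ := mul_le_mul_of_nonneg_left (sum_inv_le _) h0

theorem famL_tlog {Kc CK K0 Y : ℕ} {g P : ℝ} (hP : 0 ≤ P) (f : ℕ × ℕ × ℕ) :
    ∑ p ∈ WL K0 Y f.2.1, tL Kc CK g P f p * Real.log p ≤
      P ^ (1 - g) / KL Kc CK f * (1 + f.2.1) * f.2.1 := by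
  have h1 : ∑ p ∈ WL K0 Y f.2.1, tL Kc CK g P f p * Real.log p ≤
      ∑ p ∈ WL K0 Y f.2.1, tL Kc CK g P f p * f.2.1 := by
    refine sum_le_sum fun p hp => mul_le_mul_of_nonneg_left ?_ (tL_nonneg hP f p)
    obtain ⟨h1, _, _, h3⟩ := mem_WL.1 hp
    have hp0 : (0 : ℝ) < p := by exact_mod_cast h1.pos
    have h4 : Real.log p ≤ Real.log ((2 ^ f.2.1 : ℕ) : ℝ) :=
      Real.log_le_log hp0 (by exact_mod_cast h3)
    push_cast at h4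
    rw [Real.log_pow] at h4
    have h5 : Real.log 2 ≤ 1 := by
      have := Real.log_le_sub_one_of_pos (show (0 : ℝ) < 2 by norm_num); linarith
    have h6 : (0 : ℝ) ≤ f.2.1 := Nat.cast_nonneg _
    nlinarith
  refine h1.trans ?_
  rw [← sum_mul]
  exact mul_le_mul_of_nonneg_right (famL_t1 hP f) (Nat.cast_nonneg _)

/-! ### the probability that the random modulus is too large -/

theorem sum_bwt_prod (W : Finset ℕ) (t z : ℕ → ℝ) :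
    ∑ R ∈ W.powerset, bwt t W R * ∏ p ∈ R, z p = ∏ p ∈ W, (t p * z p + (1 - t p)) := by
  rw [Finset.prod_add]
  refine Finset.sum_congr rfl fun R _ => ?_
  rw [bwt, Finset.prod_mul_distrib]
  ring

/-- Chernoff, in the form with `bwt` -/
theorem bwt_large {W : Finset ℕ} {t : ℕ → ℝ} (h0 : ∀ p ∈ W, 0 ≤ t p) (h1 : ∀ p ∈ W, t p ≤ 1)
    {B : ℕ} (hB : 0 < B) {s : ℝ} (hs : 0 ≤ s) :
    ∑ R ∈ W.powerset with ¬ ∏ p ∈ R, p ≤ B, bwt t W R ≤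
      (B : ℝ) ^ (-s) * Real.exp (∑ p ∈ W, t p * ((p : ℝ) ^ s - 1)) := by
  have hBR : (0 : ℝ) < B := by exact_mod_cast hB
  have h2 : ∑ R ∈ W.powerset with ¬ ∏ p ∈ R, p ≤ B, bwt t W R ≤
      ∑ R ∈ W.powerset, bwt t W R * ((B : ℝ) ^ (-s) * ∏ p ∈ R, (p : ℝ) ^ s) := by
    rw [sum_filter]
    refine sum_le_sum fun R hR => ?_
    rw [mem_powerset] at hR
    have hb := H599.bwt_nonneg h0 h1 hR
    have hpr : 0 ≤ (B : ℝ) ^ (-s) * ∏ p ∈ R, (p : ℝ) ^ s := by positivity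
    by_cases h : ∏ p ∈ R, p ≤ B
    · rw [if_neg (not_not.2 h)]
      exact mul_nonneg hb hpr
    · rw [if_pos h]
      have h3 : (B : ℝ) ≤ ∏ p ∈ R, (p : ℝ) := by
        have h4 : ((B : ℕ) : ℝ) ≤ ((∏ p ∈ R, p : ℕ) : ℝ) := Nat.cast_le.2 (not_le.1 h).le
        rwa [Nat.cast_prod] at h4
      have h4 : (1 : ℝ) ≤ (B : ℝ) ^ (-s) * ∏ p ∈ R, (p : ℝ) ^ s := by
        rw [Real.finsetProd_rpow _ _ (fun p _ => Nat.cast_nonneg p), Real.rpow_neg hBR.le,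
          inv_mul_eq_div, one_le_div (Real.rpow_pos_of_pos hBR s)]
        exact Real.rpow_le_rpow hBR.le h3 hs
      calc bwt t W R = bwt t W R * 1 := (mul_one _).symm
        _ ≤ _ := mul_le_mul_of_nonneg_left h4 hb
  refine h2.trans ?_
  have h3 : ∑ R ∈ W.powerset, bwt t W R * ((B : ℝ) ^ (-s) * ∏ p ∈ R, (p : ℝ) ^ s) =
      (B : ℝ) ^ (-s) * ∑ R ∈ W.powerset, bwt t W R * ∏ p ∈ R, (p : ℝ) ^ s := by
    rw [mul_sum]
    exact sum_congr rfl fun R _ => by ring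
  rw [h3, sum_bwt_prod, Real.exp_sum]
  refine mul_le_mul_of_nonneg_left ?_ (Real.rpow_nonneg hBR.le _)
  refine prod_le_prod (fun p hp' => ?_) fun p _ => ?_
  · exact add_nonneg (mul_nonneg (h0 p hp') (Real.rpow_nonneg (Nat.cast_nonneg p) _))
      (by linarith [h1 p hp'])
  · have h4 := Real.add_one_le_exp (t p * ((p : ℝ) ^ s - 1))
    calc t p * (p : ℝ) ^ s + (1 - t p) = t p * ((p : ℝ) ^ s - 1) + 1 := by ring
      _ ≤ _ := h4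

/-- (3) the mass of the sets which are not in the truncated family -/
theorem famL_tail {Kc CK K0 Y : ℕ} {g cB P : ℝ} (hP : 0 ≤ P) (hcB : 0 ≤ cB) {f : ℕ × ℕ × ℕ}
    (hK : 1 ≤ KL Kc CK f) (hj : 1 ≤ f.2.1) :
    ∑ R ∈ (WL K0 Y f.2.1).powerset with ¬ ∏ p ∈ R, p ≤ ⌊Real.exp (cB * P / KL Kc CK f)⌋₊,
      bwt (tL Kc CK g P f) (WL K0 Y f.2.1) R ≤
    Real.exp (1 - cB * P / (KL Kc CK f * f.2.1) + 2 * (P ^ (1 - g) / KL Kc CK f * (1 + f.2.1))) := by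
  have hKr : (1 : ℝ) ≤ KL Kc CK f := by exact_mod_cast hK
  have hjr : (1 : ℝ) ≤ f.2.1 := by exact_mod_cast hj
  have hu0 : 0 ≤ cB * P / KL Kc CK f := by positivity
  have hE : 1 ≤ Real.exp (cB * P / KL Kc CK f) := Real.one_le_exp hu0
  have hB : 0 < ⌊Real.exp (cB * P / KL Kc CK f)⌋₊ := by
    rw [Nat.floor_pos]
    exact hE
  have hBr : Real.exp (cB * P / KL Kc CK f) / Real.exp 1 ≤
      ((⌊Real.exp (cB * P / KL Kc CK f)⌋₊ : ℕ) : ℝ) := by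
    have h1 := (Nat.lt_floor_add_one (Real.exp (cB * P / KL Kc CK f))).le
    have h2 : (1 : ℝ) ≤ (⌊Real.exp (cB * P / KL Kc CK f)⌋₊ : ℕ) := by exact_mod_cast hB
    have h3 : (2 : ℝ) ≤ Real.exp 1 := by linarith [Real.add_one_le_exp (1 : ℝ)]
    rw [div_le_iff₀ (Real.exp_pos _)]
    nlinarith
  have hlog2 : 0 < Real.log 2 := Real.log_pos (by norm_num)
  have hlog21 : Real.log 2 ≤ 1 := by
    have := Real.log_le_sub_one_of_pos (show (0 : ℝ) < 2 by norm_num); linarith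
  obtain ⟨s, hs⟩ : ∃ s : ℝ, s = 1 / f.2.1 := ⟨_, rfl⟩
  have hs0 : 0 < s := by rw [hs]; positivity
  have hs1 : s ≤ 1 := by rw [hs, div_le_one (by linarith)]; exact hjr
  have h1 := bwt_large (W := WL K0 Y f.2.1) (t := tL Kc CK g P f) (fun p _ => tL_nonneg hP f p)
    (fun p _ => (tL_le hK p).trans (by rw [div_le_one (by linarith)]; exact hKr)) hB hs0.le
  refine h1.trans ?_
  have h2 : ((⌊Real.exp (cB * P / KL Kc CK f)⌋₊ : ℕ) : ℝ) ^ (-s) ≤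
      Real.exp (1 - cB * P / (KL Kc CK f * f.2.1)) := by
    have h3 : ((⌊Real.exp (cB * P / KL Kc CK f)⌋₊ : ℕ) : ℝ) ^ (-s) ≤
        (Real.exp (cB * P / KL Kc CK f) / Real.exp 1) ^ (-s) :=
      Real.rpow_le_rpow_of_nonpos (by positivity) hBr (by linarith)
    refine h3.trans ?_
    rw [← Real.exp_sub, ← Real.exp_mul, Real.exp_le_exp]
    have h4 : cB * P / (KL Kc CK f * f.2.1) = cB * P / KL Kc CK f * s := by
      rw [hs]; field_simp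
    rw [h4]
    linarith
  have h3 : ∑ p ∈ WL K0 Y f.2.1, tL Kc CK g P f p * ((p : ℝ) ^ s - 1) ≤
      2 * (P ^ (1 - g) / KL Kc CK f * (1 + f.2.1)) := by
    have h4 : ∑ p ∈ WL K0 Y f.2.1, tL Kc CK g P f p * ((p : ℝ) ^ s - 1) ≤
        ∑ p ∈ WL K0 Y f.2.1, tL Kc CK g P f p * 2 := by
      refine sum_le_sum fun p hp => mul_le_mul_of_nonneg_left ?_ (tL_nonneg hP f p)
      obtain ⟨h1, _, _, h3⟩ := mem_WL.1 hp
      have h4 : (p : ℝ) ≤ 2 ^ f.2.1 := by exact_mod_cast h3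
      have h5 : (p : ℝ) ^ s ≤ ((2 : ℝ) ^ f.2.1) ^ s :=
        Real.rpow_le_rpow (Nat.cast_nonneg p) h4 hs0.le
      have h6 : ((2 : ℝ) ^ f.2.1) ^ s = 2 := by
        rw [hs, one_div, Real.pow_rpow_inv_natCast (by norm_num) (by omega)]
      linarith
    refine h4.trans ?_
    rw [← sum_mul]
    have h5 := famL_t1 (K0 := K0) (Y := Y) (Kc := Kc) (CK := CK) (g := g) hP f
    linarith
  calc _ ≤ Real.exp (1 - cB * P / (KL Kc CK f * f.2.1)) *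
        Real.exp (2 * (P ^ (1 - g) / KL Kc CK f * (1 + f.2.1))) :=
        mul_le_mul h2 (Real.exp_le_exp.2 h3) (Real.exp_pos _).le (Real.exp_pos _).le
    _ = _ := (Real.exp_add _ _).symm

/-- (3') the eventual form -/
theorem famL_tail' {Kc CK K0 Y : ℕ} {g cB P : ℝ} (hP : 0 < P) (hcB : 0 < cB) {f : ℕ × ℕ × ℕ}
    (hK : 1 ≤ KL Kc CK f) (hj : 1 ≤ f.2.1)
    (hg : 4 / cB * ((f.2.1 : ℝ) * (1 + f.2.1)) ≤ P ^ g) :
    ∑ R ∈ (WL K0 Y f.2.1).powerset with ¬ ∏ p ∈ R, p ≤ ⌊Real.exp (cB * P / KL Kc CK f)⌋₊,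
      bwt (tL Kc CK g P f) (WL K0 Y f.2.1) R ≤ Real.exp (1 - cB * P / (2 * (KL Kc CK f * f.2.1))) := by
  refine (famL_tail hP.le hcB.le hK hj).trans (Real.exp_le_exp.2 ?_)
  have hKr : (0 : ℝ) < KL Kc CK f := by
    have : (1 : ℝ) ≤ KL Kc CK f := by exact_mod_cast hK
    linarith
  have hjr : (0 : ℝ) < f.2.1 := by exact_mod_cast hj
  have h1 : P ^ (1 - g) * P ^ g = P := by
    rw [← Real.rpow_add hP]; simp
  have h2 : P ^ (1 - g) * (4 / cB * ((f.2.1 : ℝ) * (1 + f.2.1))) ≤ P := by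
    calc P ^ (1 - g) * (4 / cB * ((f.2.1 : ℝ) * (1 + f.2.1))) ≤ P ^ (1 - g) * P ^ g :=
          mul_le_mul_of_nonneg_left hg (Real.rpow_nonneg hP.le _)
      _ = P := h1
  have h3 : 2 * (P ^ (1 - g) / KL Kc CK f * (1 + f.2.1)) ≤
      cB * P / (2 * (KL Kc CK f * f.2.1)) := by
    rw [le_div_iff₀ (by positivity)]
    have h4 : 2 * (P ^ (1 - g) / KL Kc CK f * (1 + f.2.1)) * (2 * (KL Kc CK f * f.2.1)) =
        cB * (P ^ (1 - g) * (4 / cB * ((f.2.1 : ℝ) * (1 + f.2.1)))) := by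
      field_simp
      ring
    rw [h4]
    exact mul_le_mul_of_nonneg_left h2 hcB.le
  have h4 : cB * P / (KL Kc CK f * f.2.1) = 2 * (cB * P / (2 * (KL Kc CK f * f.2.1))) := by
    field_simp
  linarith

end Vale.Agent.P042.H972
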