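import Vale.Agent.P042.H945.State9
import Vale.Agent.P042.H739.FinalS

/-!
P042 [D]: generic assembly of the state theorem (any parameters `Par`): the base state, the
maximiser, its length, the difference set, `Base6`, and the frame `STATE6`.
-/

namespace Vale.Agent.P042.H972

open Finset Polynomial Vale.Agent.P042.H599 Vale.Agent.P042.H945 Vale.Agent.P042.H739

variable {ι : Type} {Q : Par ι} {N : ℕ} {A0 : Finset ℤ} {L : ℝ}

/-- the uniform law of a set -/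
noncomputable def unif (A0 : Finset ℤ) (n : ℕ) : ℝ :=
  if (n : ℤ) ∈ A0 then 1 / (A0.card : ℝ) else 0

theorem sum_unif (hsub : A0 ⊆ Icc (1 : ℤ) N) (hne : 0 < (A0.card : ℝ)) :
    ∑ i ∈ range N, unif A0 (1 + i) = 1 := by
  have h1 : ∑ i ∈ range N, unif A0 (1 + i) =
      ∑ i ∈ (range N).filter (fun i => ((1 + i : ℕ) : ℤ) ∈ A0), 1 / (A0.card : ℝ) := by
    rw [Finset.sum_filter]
    rfl
  have h2 : ((range N).filter (fun i => ((1 + i : ℕ) : ℤ) ∈ A0)).card = A0.card := by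
    refine Finset.card_bij (fun i _ => ((1 + i : ℕ) : ℤ)) (fun i hi => (mem_filter.1 hi).2)
      (fun i _ j _ hij => by
        have : (1 + i : ℕ) = 1 + j := by exact_mod_cast hij
        omega) (fun b hb => ?_)
    have h3 := Finset.mem_Icc.1 (hsub hb)
    refine ⟨(b - 1).toNat, ?_, ?_⟩
    · rw [mem_filter, mem_range]
      have h4 : ((1 + (b - 1).toNat : ℕ) : ℤ) = b := by push_cast; omega
      refine ⟨by omega, ?_⟩
      rw [h4]
      exact hb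
    · push_cast; omega
  rw [h1, Finset.sum_const, h2, nsmul_eq_mul]
  field_simp

/-- (1) the base state is admissible -/
theorem base_adm (hQ : Ok Q) (hsub : A0 ⊆ Icc (1 : ℤ) N)
    (hcard : Real.exp (-L) * N ≤ (A0.card : ℝ)) (hMm : Q.Mm ≤ N) (hLD : L ≤ Q.D0) :
    Adm Q N A0 1 0 N (unif A0) := by
  have hN : 0 < N := by have := hQ.Mm1; omega
  have hN' : (0 : ℝ) < N := by exact_mod_cast hN
  have hc : 0 < (A0.card : ℝ) := lt_of_lt_of_le (by positivity) hcard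
  refine ⟨le_rfl, hMm, ?_, ?_, ⟨hN, fun i _ => ?_, sum_unif hsub hc⟩, fun n => ?_, fun n hn => ?_⟩
  · rw [hQ.lam1]; norm_num
  · rw [hQ.lam1]; push_cast; linarith
  · unfold unif
    split_ifs
    · positivity
    · exact le_rfl
  · unfold unif
    split_ifs
    · rw [div_le_div_iff₀ hc hN']
      have h1 : Real.exp Q.D0 * (Real.exp (-L) * N) ≤ Real.exp Q.D0 * A0.card :=
        mul_le_mul_of_nonneg_left hcard (Real.exp_pos _).le
      have h2 : 1 ≤ Real.exp Q.D0 * Real.exp (-L) := by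
        rw [← Real.exp_add]
        exact Real.one_le_exp (by linarith)
      have h3 : 1 * (N : ℝ) ≤ Real.exp Q.D0 * Real.exp (-L) * N :=
        mul_le_mul_of_nonneg_right h2 hN'.le
      linarith
    · positivity
  · unfold unif at hn
    have h1 : (n : ℤ) ∈ A0 := by
      by_contra h2
      rw [if_neg h2] at hn
      exact hn rfl
    have h2 := Finset.mem_Icc.1 (hsub h1)
    refine ⟨by omega, by omega, ?_⟩
    rw [hQ.lam1, zero_add, Nat.cast_one, one_mul]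
    exact h1

/-- the value of the functional at the base state -/
theorem base_FF (hQ : Ok Q) (hsub : A0 ⊆ Icc (1 : ℤ) N)
    (hcard : Real.exp (-L) * N ≤ (A0.card : ℝ)) (hMm : Q.Mm ≤ N) (hLD : L ≤ Q.D0) :
    -L + Q.eta * Real.log N ≤ FF Q 1 N (unif A0) := by
  have hA := base_adm hQ hsub hcard hMm hLD
  have hN : 0 < N := hA.law.pos
  have hN' : (0 : ℝ) < N := by exact_mod_cast hN
  have hc : 0 < (A0.card : ℝ) := lt_of_lt_of_le (by positivity) hcard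
  have h1 : kl0 (unif A0) 1 N ≤ L := by
    unfold kl0
    have h2 : ∑ i ∈ range N, unif A0 (1 + i) * Real.log (N * unif A0 (1 + i)) ≤
        ∑ i ∈ range N, unif A0 (1 + i) * L := by
      refine Finset.sum_le_sum fun i hi => ?_
      unfold unif
      split_ifs
      · refine mul_le_mul_of_nonneg_left ?_ (by positivity)
        rw [Real.log_le_iff_le_exp (by positivity)]
        rw [mul_one_div, div_le_iff₀ hc]
        have h3 : Real.exp L * (Real.exp (-L) * N) ≤ Real.exp L * A0.card :=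
          mul_le_mul_of_nonneg_left hcard (Real.exp_pos _).le
        rw [← mul_assoc, ← Real.exp_add, add_neg_cancel, Real.exp_zero, one_mul] at h3
        exact h3
      · rw [zero_mul, zero_mul]
    rw [← Finset.sum_mul, hA.law.sum, one_mul] at h2
    exact h2
  have h2 : 0 ≤ ∑ i ∈ Q.I, Q.c i * klu (unif A0) 1 N (Q.m i) :=
    Finset.sum_nonneg fun i hi => mul_nonneg (hQ.hc i hi) (klu_nonneg hA.law (hQ.hm i hi))
  have h3 := Om_nonneg hQ 1 (sp (unif A0) N)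
  unfold FF g0
  linarith

/-- (2) the maximiser -/
theorem exists_Mx (hQ : Ok Q) (hL : 0 ≤ L) (hsub : A0 ⊆ Icc (1 : ℤ) N)
    (hcard : Real.exp (-L) * N ≤ (A0.card : ℝ)) (hMm : Q.Mm ≤ N)
    (hD0 : 2 * L + 3 * Q.E1 < Q.D0 / 8) (hD2 : Real.exp (-(Q.D0 / 4)) ≤ 1 / 2) :
    ∃ (d : ℕ) (a : ℤ) (M : ℕ) (x : ℕ → ℝ), Mx Q N A0 d a M x L := by
  have hE := hQ.E10
  have hLD : L ≤ Q.D0 := by have := hQ.D00; linarith
  obtain ⟨d, a, M, x, hA, hmax⟩ := exists_max hQ N A0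
    ⟨1, 0, N, unif A0, base_adm hQ hsub hcard hMm hLD⟩
  exact ⟨d, a, M, x, hQ, ⟨hA, hmax⟩, hL, (base_FF hQ hsub hcard hMm hLD).trans
    (hmax _ _ _ _ (base_adm hQ hsub hcard hMm hLD)), hD0, hD2⟩

variable {d M : ℕ} {a : ℤ} {x : ℕ → ℝ}

/-- (3) the length of the progression at the maximiser -/
theorem Mx_len (hm : Mx Q N A0 d a M x L) :
    Real.log N - (L + Q.E1) / Q.eta ≤ Real.log M ∧ M ≤ N ∧
      Real.log (Q.lam d) ≤ (L + Q.E1) / Q.eta + Real.log 2 := by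
  have hQ := hm.ok
  have hA := hm.mx.1
  have h1 := (value_bounds hQ hm.mx hm.base).1
  have h2 := kl0_nonneg hA.law
  have heta := hQ.eta0
  have hM2 : 2 ≤ M := hQ.Mm1.trans hA.hM
  have hlpos := hQ.lam0 d hA.hd
  have hl : (1 : ℤ) ≤ Q.lam d := by exact_mod_cast hlpos
  have hlo := hA.lo
  have hhi := hA.hi
  have hMN : (M : ℤ) ≤ N := by
    have : (2 : ℤ) ≤ M := by exact_mod_cast hM2
    nlinarith
  have h3 : Q.eta * (Real.log N - Real.log M) ≤ L + Q.E1 := by linarith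
  have h4 : Real.log N - Real.log M ≤ (L + Q.E1) / Q.eta := by
    rw [le_div_iff₀ heta]
    linarith
  refine ⟨by linarith, by exact_mod_cast hMN, ?_⟩
  have h5 : (Q.lam d : ℤ) * (M - 1) ≤ N := by nlinarith
  have h6 : ((Q.lam d : ℕ) : ℝ) * ((M : ℝ) - 1) ≤ N := by exact_mod_cast h5
  have hM2r : (2 : ℝ) ≤ M := by exact_mod_cast hM2
  have hlr : (0 : ℝ) < Q.lam d := by exact_mod_cast hlpos
  have h7 : ((Q.lam d : ℕ) : ℝ) * M ≤ 2 * N := by nlinarith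
  have hMp : (0 : ℝ) < M := by linarith
  have hNp : (0 : ℝ) < N := by
    have h8 : (0 : ℝ) < Q.lam d * M := by positivity
    linarith
  have h8 := Real.log_le_log (by positivity) h7
  rw [Real.log_mul hlr.ne' hMp.ne', Real.log_mul (by norm_num) hNp.ne'] at h8
  linarith

/-- (4) the difference set at the maximiser -/
theorem Mx_df {h : ℤ[X]} {r : ℕ → ℤ} {Hh : ℕ → ℤ[X]} {R : ℕ} (hAux : AuxData h Q.lam r Hh R)
    (hdf : DiffFree h A0) (hA : Adm Q N A0 d a M x) {n m : ℕ} (hn : x n ≠ 0) (hm : x m ≠ 0)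
    {z : ℕ} (hz : 1 ≤ z) (he : (n : ℤ) - m = (Hh d).eval (z : ℤ)) : n = m := by
  have hd := hA.hd
  have h1 := (hA.supp n hn).2.2
  have h2 := (hA.supp m hm).2.2
  have h3 := congrArg (fun g : ℤ[X] => g.eval (z : ℤ)) (hAux.hH d hd)
  simp only [eval_mul, eval_C, eval_comp, eval_add, eval_X] at h3
  have hr := hAux.hr d hd
  have hz' : (1 : ℤ) ≤ z := by exact_mod_cast hz
  have hd' : (1 : ℤ) ≤ d := by exact_mod_cast hd
  have hpos : 1 ≤ r d + d * z := by nlinarith [hr.1]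
  obtain ⟨t, ht⟩ : ∃ t : ℕ, (t : ℤ) = r d + d * z := ⟨(r d + d * z).toNat, by omega⟩
  have ht1 : 1 ≤ t := by
    have : (1 : ℤ) ≤ t := by rw [ht]; exact hpos
    exact_mod_cast this
  have hdiff : (a + Q.lam d * n) - (a + Q.lam d * m) = h.eval (t : ℤ) := by
    rw [ht, ← h3, ← he]
    ring
  have h4 : (a + Q.lam d * n) - (a + Q.lam d * m) ∈ ({0} : Set ℤ) := by
    refine hdf ⟨?_, ?_⟩
    · exact Set.mem_sub.2 ⟨_, by exact_mod_cast h1, _, by exact_mod_cast h2, rfl⟩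
    · exact ⟨t, ht1, hdiff.symm⟩
  rw [Set.mem_singleton_iff] at h4
  have hl : (Q.lam d : ℤ) ≠ 0 := by
    have := hm
    have h5 := hAux.lam_pos d hd
    exact_mod_cast (by omega : Q.lam d ≠ 0)
  have h5 : (Q.lam d : ℤ) * ((n : ℤ) - m) = 0 := by linarith
  have h6 := (mul_eq_zero.1 h5).resolve_left hl
  have h7 : (n : ℤ) = m := by linarith
  exact_mod_cast h7

/-- the weight of a law -/
noncomputable def GG (M : ℕ) (mu : ℕ → ℝ) (n : ℤ) : ℝ := if 1 ≤ n then (M : ℝ) * mu n.toNat else 0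

theorem sum_GG {mu : ℕ → ℝ} (M : ℕ) (f : ℝ → ℝ) :
    ∑ n ∈ Icc (1 : ℤ) M, f (GG M mu n) = ∑ i ∈ range M, f (M * mu (1 + i)) := by
  symm
  refine Finset.sum_bij (fun i _ => ((1 + i : ℕ) : ℤ)) (fun i hi => ?_)
    (fun i _ j _ hij => by
      have : (1 + i : ℕ) = 1 + j := by exact_mod_cast hij
      omega) (fun b hb => ?_) (fun i hi => ?_)
  · have := mem_range.1 hi
    rw [Finset.mem_Icc]
    constructor <;> push_cast <;> omega
  · have h3 := Finset.mem_Icc.1 hb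
    refine ⟨(b - 1).toNat, ?_, ?_⟩
    · rw [mem_range]; omega
    · push_cast; omega
  · unfold GG
    have h1 : (1 : ℤ) ≤ ((1 + i : ℕ) : ℤ) := by push_cast; omega
    rw [if_pos h1, Int.toNat_natCast]

/-- (5) from a law on the maximiser to `Base6` -/
theorem base6_of {h : ℤ[X]} {r : ℕ → ℤ} {Hh : ℕ → ℤ[X]} {R : ℕ} (hAux : AuxData h Q.lam r Hh R)
    (hdf : DiffFree h A0) (hA : Adm Q N A0 d a M x) {κ P : ℝ} {mu : ℕ → ℝ} (hmu : Law mu 1 M)
    (hout : ∀ n, mu n ≠ 0 → x n ≠ 0) (hcap : ∀ n, M * mu n ≤ Real.exp (κ * P))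
    (hlo : (1 - κ) * P ≤ Real.log M) (hhi : Real.log M ≤ P) :
    Base6 (Hh d) κ P M (GG M mu) := by
  have hM : (0 : ℝ) < M := by exact_mod_cast hmu.pos
  have hne : ∀ n : ℤ, GG M mu n ≠ 0 → 1 ≤ n ∧ mu n.toNat ≠ 0 := by
    intro n hn
    unfold GG at hn
    by_cases h1 : 1 ≤ n
    · rw [if_pos h1] at hn
      exact ⟨h1, fun h2 => hn (by rw [h2, mul_zero])⟩
    · rw [if_neg h1] at hn
      exact absurd rfl hn
  have hmun : ∀ n, 0 ≤ mu n := by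
    intro n
    by_cases h0 : mu n = 0
    · exact h0.ge
    · obtain ⟨h1, h2, _⟩ := hA.supp n (hout n h0)
      have := hmu.nonneg (n - 1) (by omega)
      rwa [show 1 + (n - 1) = n by omega] at this
  refine ⟨?_, ?_, fun n => ?_, fun n hn => ?_, ?_, fun n => ?_, fun n m hn hm z hz he => ?_⟩
  · rw [← Real.le_log_iff_exp_le hM]
    exact hlo
  · rw [← Real.log_le_iff_le_exp hM]
    exact hhi
  · unfold GG
    split_ifs
    · exact mul_nonneg hM.le (hmun _)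
    · exact le_rfl
  · obtain ⟨h1, h2⟩ := hne n hn
    obtain ⟨h3, h4, _⟩ := hA.supp _ (hout _ h2)
    refine ⟨h1, ?_⟩
    omega
  · have h1 := sum_GG (mu := mu) M (fun t => t)
    rw [h1, ← Finset.mul_sum, hmu.sum, mul_one]
  · unfold GG
    split_ifs
    · exact hcap _
    · exact (Real.exp_pos _).le
  · obtain ⟨h1, h2⟩ := hne n hn
    obtain ⟨h3, h4⟩ := hne m hm
    have h5 : (n.toNat : ℤ) = n := Int.toNat_of_nonneg (by omega)
    have h6 : (m.toNat : ℤ) = m := Int.toNat_of_nonneg (by omega)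
    have h7 := Mx_df hAux hdf hA (hout _ h2) (hout _ h4) hz (by rw [h5, h6]; exact he)
    rw [← h5, ← h6, h7]

/-- the shape of the state predicate -/
def StOf (F : ℕ → ℕ → ℤ[X] → ℝ → ℝ → ℕ → (ℕ → ℝ) → Prop) : StTy :=
  fun k R f κ P N' G => ∃ mu : ℕ → ℝ, F k R f κ P N' mu ∧
    ∀ n : ℤ, G n = if 1 ≤ n then (N' : ℝ) * mu n.toNat else 0

/-- the numbers which the assembly needs -/
structure Num (Q : Par ι) (κ L P : ℝ) : Prop where
  L0 : 0 ≤ L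
  D0 : 2 * L + 3 * Q.E1 < Q.D0 / 8
  D2 : Real.exp (-(Q.D0 / 4)) ≤ 1 / 2
  Mm : (Q.Mm : ℝ) ≤ Real.exp P
  len : (L + Q.E1) / Q.eta + Real.log 2 ≤ κ * P

/-- **(6) the assembly at one value of `P`** -/
theorem stat_of {h : ℤ[X]} {r : ℕ → ℤ} {Hh : ℕ → ℤ[X]} {R : ℕ} {κ dl P : ℝ} (hQ : Ok Q)
    (hAux : AuxData h Q.lam r Hh R) (hnum : Num Q κ dl P)
    (Sp : ℤ[X] → ℕ → (ℕ → ℝ) → Prop)
    (hSt : ∀ (N : ℕ) (A0 : Finset ℤ) (d : ℕ) (a : ℤ) (M : ℕ) (x : ℕ → ℝ), Real.log N = P →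
      Mx Q N A0 d a M x dl → (1 - κ) * P ≤ Real.log M → Real.log M ≤ P →
      ∃ mu : ℕ → ℝ, Law mu 1 M ∧ (∀ n, mu n ≠ 0 → x n ≠ 0) ∧
        (∀ n, M * mu n ≤ Real.exp (κ * P)) ∧ Sp (Hh d) M mu) :
    STat h Hh κ dl P (fun f N' G => ∃ mu : ℕ → ℝ, Sp f N' mu ∧
      ∀ n : ℤ, G n = if 1 ≤ n then (N' : ℝ) * mu n.toNat else 0) := by
  intro N hN hlog A0 hsub hdf hcard
  have hN' : (0 : ℝ) < N := by exact_mod_cast hN
  have hMm : Q.Mm ≤ N := by
    have h1 := hnum.Mm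
    rw [← hlog, Real.exp_log hN'] at h1
    exact_mod_cast h1
  obtain ⟨d, a, M, x, hm⟩ := exists_Mx hQ hnum.L0 hsub hcard hMm hnum.D0 hnum.D2
  obtain ⟨h1, h2, h3⟩ := Mx_len hm
  have hA := hm.mx.1
  have hMpos : (0 : ℝ) < M := by exact_mod_cast hA.law.pos
  have hlog2 : 0 ≤ Real.log 2 := Real.log_nonneg (by norm_num)
  have hlen := hnum.len
  have hlo : (1 - κ) * P ≤ Real.log M := by
    rw [hlog] at h1
    linarith
  have hhi : Real.log M ≤ P := by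
    rw [← hlog]
    exact Real.log_le_log hMpos (by exact_mod_cast h2)
  obtain ⟨mu, hmu, hout, hcap, hSp⟩ := hSt N A0 d a M x hlog hm hlo hhi
  refine ⟨d, M, GG M mu, hA.hd, ?_, base6_of hAux hdf hA hmu hout hcap hlo hhi, mu, hSp,
    fun n => rfl⟩
  have hdl : (d : ℝ) ≤ Q.lam d := by
    exact_mod_cast Nat.le_of_dvd (hQ.lam0 d hA.hd) (hQ.lamd d hA.hd)
  have hlp : (0 : ℝ) < Q.lam d := by exact_mod_cast hQ.lam0 d hA.hd
  refine hdl.trans ?_
  rw [← Real.log_le_iff_le_exp hlp]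
  linarith

/-- **(7) the frame of the power regime** -/
theorem state6_of (F : ℕ → ℕ → ℤ[X] → ℝ → ℝ → ℕ → (ℕ → ℝ) → Prop)
    (HP : ∀ (h : ℤ[X]) (lam : ℕ → ℕ) (r : ℕ → ℤ) (Hh : ℕ → ℤ[X]) (R : ℕ),
      AuxData h lam r Hh R → 2 ≤ h.natDegree → 0 < h.leadingCoeff →
      ∀ κ : ℝ, 0 < κ → κ ≤ 1 / 8 → ∃ c : ℝ, 0 < c ∧ ∃ P0 : ℝ, ∀ P : ℝ, P0 ≤ P →
      ∃ (ι : Type) (Q : Par ι), Ok Q ∧ Q.lam = lam ∧ Num Q κ (c * P) P ∧
      ∀ (N : ℕ) (A0 : Finset ℤ) (d : ℕ) (a : ℤ) (M : ℕ) (x : ℕ → ℝ), Real.log N = P →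
        Mx Q N A0 d a M x (c * P) → (1 - κ) * P ≤ Real.log M → Real.log M ≤ P →
        ∃ mu : ℕ → ℝ, Law mu 1 M ∧ (∀ n, mu n ≠ 0 → x n ≠ 0) ∧
          (∀ n, M * mu n ≤ Real.exp (κ * P)) ∧ F h.natDegree R (Hh d) κ P M mu) :
    STATE6 (StOf F) := by
  intro h lam r Hh R hAux hdeg hpos κ hκ hκ8
  obtain ⟨c, hc, P0, H⟩ := HP h lam r Hh R hAux hdeg hpos κ hκ hκ8
  refine ⟨c, hc, P0, fun P hP N hN hlog A0 hsub hdf hcard => ?_⟩
  obtain ⟨ι, Q, hQ, hlam, hnum, hSt⟩ := H P hP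
  subst hlam
  exact stat_of hQ hAux hnum (fun f N' mu => F h.natDegree R f κ P N' mu) hSt N hN hlog A0 hsub
    hdf hcard

/-- the same for target S -/
theorem states_of (F : ℕ → ℕ → ℤ[X] → ℝ → ℕ → ℝ → ℕ → (ℕ → ℝ) → Prop)
    (HP : ∀ (h : ℤ[X]) (lam : ℕ → ℕ) (r : ℕ → ℤ) (Hh : ℕ → ℤ[X]) (R : ℕ),
      AuxData h lam r Hh R → 2 ≤ h.natDegree → 0 < h.leadingCoeff →
      ∀ (κ : ℝ) (C : ℕ), 0 < κ → κ ≤ 1 / 8 → 1 ≤ C → ∃ P0 : ℝ, ∀ P : ℝ, P0 ≤ P →
      ∃ (ι : Type) (Q : Par ι), Ok Q ∧ Q.lam = lam ∧ Num Q κ (P / Real.log P ^ C) P ∧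
      ∀ (N : ℕ) (A0 : Finset ℤ) (d : ℕ) (a : ℤ) (M : ℕ) (x : ℕ → ℝ), Real.log N = P →
        Mx Q N A0 d a M x (P / Real.log P ^ C) → (1 - κ) * P ≤ Real.log M → Real.log M ≤ P →
        ∃ mu : ℕ → ℝ, Law mu 1 M ∧ (∀ n, mu n ≠ 0 → x n ≠ 0) ∧
          (∀ n, M * mu n ≤ Real.exp (κ * P)) ∧ F h.natDegree R (Hh d) κ C P M mu) :
    STATES (fun k R f κ C P N' G => ∃ mu : ℕ → ℝ, F k R f κ C P N' mu ∧
      ∀ n : ℤ, G n = if 1 ≤ n then (N' : ℝ) * mu n.toNat else 0) := by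
  intro h lam r Hh R hAux hdeg hpos κ C hκ hκ8 hC
  obtain ⟨P0, H⟩ := HP h lam r Hh R hAux hdeg hpos κ C hκ hκ8 hC
  refine ⟨P0, fun P hP N hN hlog A0 hsub hdf hcard => ?_⟩
  obtain ⟨ι, Q, hQ, hlam, hnum, hSt⟩ := H P hP
  subst hlam
  exact stat_of hQ hAux hnum (fun f N' mu => F h.natDegree R f κ C P N' mu) hSt N hN hlog A0
    hsub hdf hcard

end Vale.Agent.P042.H972
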