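import Vale.Agent.P042.H972.PwNum

/-!
P042 [D], power regime: the frame with all constants as functions of `(k, R, κ)`.
-/

namespace Vale.Agent.P042.H972

open Finset Polynomial Vale.Agent.P042.H599 Vale.Agent.P042.H945 Vale.Agent.P042.H739

/-- **the state theorem of the power regime, constants as functions of `k`, `R`, `κ`**:
`D0 = c1 k R κ * P`, slope `eta k R κ`; the functional is `QF k R κ P Hh lam`. -/
theorem state6_fix {ι : Type} (c1 eta : ℕ → ℕ → ℝ → ℝ)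
    (QF : ℕ → ℕ → ℝ → ℝ → (ℕ → ℤ[X]) → (ℕ → ℕ) → Par ι)
    (F : ℕ → ℕ → ℤ[X] → ℝ → ℝ → ℕ → (ℕ → ℝ) → Prop)
    (hpos : ∀ (k R : ℕ) (κ : ℝ), 2 ≤ k → 1 ≤ R → 0 < κ → κ ≤ 1 / 8 →
      0 < c1 k R κ ∧ c1 k R κ ≤ κ ∧ 0 < eta k R κ)
    (HQ : ∀ (h : ℤ[X]) (lam : ℕ → ℕ) (r : ℕ → ℤ) (Hh : ℕ → ℤ[X]) (R : ℕ),
      AuxData h lam r Hh R → 2 ≤ h.natDegree → 0 < h.leadingCoeff →
      ∀ κ : ℝ, 0 < κ → κ ≤ 1 / 8 → ∃ A s : ℝ, 0 ≤ A ∧ 0 < s ∧ ∃ P0 : ℝ, ∀ P : ℝ, P0 ≤ P →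
      Ok (QF h.natDegree R κ P Hh lam) ∧ (QF h.natDegree R κ P Hh lam).lam = lam ∧
      (QF h.natDegree R κ P Hh lam).D0 = c1 h.natDegree R κ * P ∧
      (QF h.natDegree R κ P Hh lam).E1 ≤ A * P ^ (1 - s) ∧
      (QF h.natDegree R κ P Hh lam).eta = eta h.natDegree R κ ∧
      ((QF h.natDegree R κ P Hh lam).Mm : ℝ) ≤ Real.exp P)
    (HF : ∀ (h : ℤ[X]) (lam : ℕ → ℕ) (r : ℕ → ℤ) (Hh : ℕ → ℤ[X]) (R : ℕ),
      AuxData h lam r Hh R → 2 ≤ h.natDegree → 0 < h.leadingCoeff →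
      ∀ κ : ℝ, 0 < κ → κ ≤ 1 / 8 →
      ∃ c2 : ℝ, 0 < c2 ∧ ∀ c : ℝ, 0 < c → c ≤ c2 → ∃ P0 : ℝ, ∀ P : ℝ, P0 ≤ P →
      ∀ (N : ℕ) (A0 : Finset ℤ) (d : ℕ) (a : ℤ) (M : ℕ) (x : ℕ → ℝ), Real.log N = P →
        Mx (QF h.natDegree R κ P Hh lam) N A0 d a M x (c * P) →
        (1 - κ) * P ≤ Real.log M → Real.log M ≤ P →
        F h.natDegree R (Hh d) κ P M (core x M (c1 h.natDegree R κ * P))) :
    STATE6 (StOf F) := by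
  refine state6_of F fun h lam r Hh R hAux hdeg hlead κ hκ hκ8 => ?_
  obtain ⟨hc1p, hc1b, he0⟩ := hpos h.natDegree R κ hdeg hAux.hR hκ hκ8
  obtain ⟨A, s, hA, hs, Pa, hOk⟩ := HQ h lam r Hh R hAux hdeg hlead κ hκ hκ8
  obtain ⟨cb, hcb, HFc⟩ := HF h lam r Hh R hAux hdeg hlead κ hκ hκ8
  obtain ⟨k1, hk1⟩ : ∃ k1, k1 = c1 h.natDegree R κ := ⟨_, rfl⟩
  obtain ⟨e1, he1⟩ : ∃ e1, e1 = eta h.natDegree R κ := ⟨_, rfl⟩
  rw [← hk1] at hc1p hc1b HFc hOk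
  rw [← he1] at he0 hOk
  obtain ⟨ca, hca, Hnum⟩ := num_pw hs hA hκ he0 hc1p
  obtain ⟨c, hc⟩ : ∃ c, c = min ca cb := ⟨_, rfl⟩
  have hcp : 0 < c := by rw [hc]; exact lt_min hca hcb
  obtain ⟨Pb, hnum⟩ := Hnum c hcp (by rw [hc]; exact min_le_left _ _)
  obtain ⟨Pc, hF⟩ := HFc c hcp (by rw [hc]; exact min_le_right _ _)
  refine ⟨c, hcp, max Pa (max Pb Pc), fun P hP => ?_⟩
  have hPa : Pa ≤ P := (le_max_left _ _).trans hP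
  have hPb : Pb ≤ P := (le_max_left _ _).trans ((le_max_right _ _).trans hP)
  have hPc : Pc ≤ P := (le_max_right _ _).trans ((le_max_right _ _).trans hP)
  obtain ⟨hP1, hP2, hnum⟩ := hnum P hPb
  have hP0 : 0 < P := by linarith
  obtain ⟨q1, q2, q3, q4, q5, q6⟩ := hOk P hPa
  obtain ⟨Q, hQ⟩ : ∃ Q, Q = QF h.natDegree R κ P Hh lam := ⟨_, rfl⟩
  rw [← hQ] at q1 q2 q3 q4 q5 q6
  obtain ⟨n0, n1, n2, n3⟩ := hnum Q.E1 q4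
  refine ⟨ι, Q, q1, q2, ⟨n0, by rw [q3]; exact n1, by rw [q3]; exact n2, q6, by
    rw [q5]; exact n3⟩, ?_⟩
  intro N A0 d a M x hlog hm hlo hhi
  have hlaw := core_law' hm
  have hcap := core_cap hm
  rw [q3] at hlaw hcap
  refine ⟨core x M (k1 * P), hlaw, fun n hn => core_out n _ hn, fun n => ?_, ?_⟩
  · refine (hcap n).trans ?_
    have h9 : (2 : ℝ) ≤ Real.exp 1 := by linarith [Real.add_one_le_exp (1 : ℝ)]
    have h10 : k1 * P ≤ κ * P := mul_le_mul_of_nonneg_right hc1b hP0.le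
    calc 2 * Real.exp (k1 * P / 2) ≤ Real.exp 1 * Real.exp (k1 * P / 2) :=
          mul_le_mul_of_nonneg_right h9 (Real.exp_pos _).le
      _ = Real.exp (1 + k1 * P / 2) := (Real.exp_add _ _).symm
      _ ≤ Real.exp (κ * P) := Real.exp_le_exp.2 (by linarith)
  · rw [hQ] at hm
    exact hF P hPc N A0 d a M x hlog hm hlo hhi

end Vale.Agent.P042.H972
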