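import Vale.Agent.P042.H972.PwNum
import Vale.Agent.P042.H383.OkQ

/-!
P042 [D], power regime: the state theorem for 383's functional `parP` (backup of 599's `PP`).
-/

namespace Vale.Agent.P042.H972

open Finset Polynomial Vale.Agent.P042.H599 Vale.Agent.P042.H945 Vale.Agent.P042.H739
open Vale.Agent.P042.H383 (parP pw' Fams FamsOk ok_power)

/-- the parameters of the power regime -/
structure PwPar where
  C1 : ℕ
  K0 : ℕ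
  g : ℝ
  gr : ℝ
  gc : ℝ
  eta : ℝ

/-- admissible parameters for the degree `k` -/
structure PwPar.Valid (p : PwPar) (k : ℕ) : Prop where
  C1 : 1 ≤ p.C1
  K0 : 2 * k ≤ p.K0
  g0 : 0 < p.g
  g1 : p.g ≤ 1
  gr : p.g + p.gc ≤ p.gr
  eta0 : 0 < p.eta
  eta1 : p.eta ≤ 1

/-- the primes in `(max R K0, P ^ C1]` -/
noncomputable def WP (C1 K0 R : ℕ) (P : ℝ) : Finset ℕ :=
  (range (⌊P ^ C1⌋₊ + 1)).filter fun p => p.Prime ∧ R < p ∧ K0 < p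

theorem mem_WP {C1 K0 R p : ℕ} {P : ℝ} (hP : 0 ≤ P) :
    p ∈ WP C1 K0 R P ↔ p.Prime ∧ R < p ∧ K0 < p ∧ (p : ℝ) ≤ P ^ C1 := by
  unfold WP
  rw [mem_filter, mem_range, Nat.lt_succ_iff, Nat.le_floor_iff (by positivity)]
  tauto

/-- the functional of the power regime -/
noncomputable def QP (p : PwPar) (R : ℕ) (Hh : ℕ → ℤ[X]) (lam : ℕ → ℕ) (F : Fams) (c1 P : ℝ) :
    Par (ℕ ⊕ (Σ _ : ℕ, Finset ℕ)) :=
  parP (WP p.C1 p.K0 R P) (pw' p.g) (pw' p.g) (pw' p.gr) (fun q => (q : ℝ) ^ p.gc) Hh lam F p.eta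
    (c1 * P) (P ^ (1 - p.g / 4)) (MmP P)

/-- instance: 383's functional `parP` (backup of 599's `PP`) -/
theorem state6_parP (par : ℕ → ℝ → PwPar) (fam : ℕ → ℕ → ℝ → ℝ → Fams)
    (F : ℕ → ℕ → ℤ[X] → ℝ → ℝ → ℕ → (ℕ → ℝ) → Prop)
    (hpar : ∀ (k : ℕ) (κ : ℝ), 2 ≤ k → 0 < κ → κ ≤ 1 / 8 → (par k κ).Valid k)
    (hfam : ∀ (k R : ℕ) (κ : ℝ), 2 ≤ k → 1 ≤ R → 0 < κ → κ ≤ 1 / 8 → ∃ P0 : ℝ, ∀ P : ℝ, P0 ≤ P →
      FamsOk (fam k R κ P) (MmP P))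
    (HF : ∀ (h : ℤ[X]) (lam : ℕ → ℕ) (r : ℕ → ℤ) (Hh : ℕ → ℤ[X]) (R : ℕ),
      AuxData h lam r Hh R → 2 ≤ h.natDegree → 0 < h.leadingCoeff →
      ∀ κ : ℝ, 0 < κ → κ ≤ 1 / 8 → ∃ c0 : ℝ, 0 < c0 ∧ ∀ c1 : ℝ, 0 < c1 → c1 ≤ c0 →
      ∃ c2 : ℝ, 0 < c2 ∧ ∀ c : ℝ, 0 < c → c ≤ c2 → ∃ P0 : ℝ, ∀ P : ℝ, P0 ≤ P →
      ∀ (N : ℕ) (A0 : Finset ℤ) (d : ℕ) (a : ℤ) (M : ℕ) (x : ℕ → ℝ), Real.log N = P →
        Mx (QP (par h.natDegree κ) R Hh lam (fam h.natDegree R κ P) c1 P) N A0 d a M x (c * P) →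
        (1 - κ) * P ≤ Real.log M → Real.log M ≤ P →
        F h.natDegree R (Hh d) κ P M (core x M (c1 * P))) :
    STATE6 (StOf F) := by
  refine state6_gen (fun k κ => (par k κ).eta)
    (fun k R κ c1 P Hh lam => QP (par k κ) R Hh lam (fam k R κ P) c1 P) F
    (fun k κ hk h1 h2 => (hpar k κ hk h1 h2).eta0) ?_ HF
  intro h lam r Hh R hAux hdeg hpos κ hκ hκ8
  obtain ⟨hC1, hK0, hg0, hg1, hgr, he0, he1⟩ := hpar h.natDegree κ hdeg hκ hκ8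
  obtain ⟨c0, hc0, Pa, hOk⟩ := ok_power (par h.natDegree κ).C1 hC1 h.natDegree hg0 hg1 hgr
  obtain ⟨Pd, hfm⟩ := hfam h.natDegree R κ hdeg hAux.hR hκ hκ8
  refine ⟨c0, 1, (par h.natDegree κ).g / 4, hc0, zero_le_one, by positivity, fun c1 hc1 hc1' =>
    ⟨max (max Pa Pd) 2, fun P hP => ?_⟩⟩
  have hPa : Pa ≤ P := (le_max_left _ _).trans ((le_max_left _ _).trans hP)
  have hPd : Pd ≤ P := (le_max_right _ _).trans ((le_max_left _ _).trans hP)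
  have hP2 : 2 ≤ P := (le_max_right _ _).trans hP
  have hP0 : 0 < P := by linarith
  refine ⟨?_, rfl, rfl, ?_, rfl, MmP_le_exp hP2⟩
  · refine hOk P hPa h lam r Hh R hAux (by omega) rfl _ (fun q hq => ?_) _ _ (hfm P hPd)
      (MmP_ge P) _ (c1 * P) he0 he1 (by positivity)
      (mul_le_mul_of_nonneg_right hc1' hP0.le)
    rw [mem_WP hP0.le] at hq
    exact ⟨hq.1, hq.2.1, by omega, hq.2.2.2⟩
  · rw [one_mul]
    exact le_rfl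

end Vale.Agent.P042.H972
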