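import Vale.Agent.P042.H972.PwFix
import Vale.Agent.P042.H972.FamL
import Vale.Agent.P042.H383.OmP

/-!
P042 [D], power regime: the hypothesis `HQ` of `state6_fix` for the functional `QP`.
-/

namespace Vale.Agent.P042.H972

open Finset Polynomial Vale.Agent.P042.H599 Vale.Agent.P042.H945 Vale.Agent.P042.H739
open Vale.Agent.P042.H383 (QP ok_QP)

/-- **`HQ`**: for the functional with weights `p^{-g}`, rewards `p^{-gr}`, caps `p^{gc}`, any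
families -/
theorem hq_of {κ' : Type} {C1 g gr gc c1 eta : ℝ} (hC1 : 1 ≤ C1) (hg : 0 < g) (hg1 : g ≤ 1)
    (hgr : g + gc ≤ gr) (hc1 : 0 < c1) (hc1' : c1 ≤ g / (2560 * C1)) (he0 : 0 < eta)
    (he1 : eta ≤ 1) (fm : ℝ → H599.Fam κ') (W : ℝ → Finset ℕ) {k R : ℕ}
    (hW : ∃ P0 : ℝ, ∀ P : ℝ, P0 ≤ P → ∀ p ∈ W P, p.Prime ∧ R < p ∧ 2 * k ≤ p ∧ (p : ℝ) ≤ P ^ C1)
    (hfm : ∃ P0 : ℝ, ∀ P : ℝ, P0 ≤ P → FamOk (fm P) (MmP P))
    {h : ℤ[X]} {lam : ℕ → ℕ} {r : ℕ → ℤ} {Hh : ℕ → ℤ[X]} (hA : AuxData h lam r Hh R)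
    (hk : 1 ≤ h.natDegree) (hkk : h.natDegree = k) :
    ∃ A s : ℝ, 0 ≤ A ∧ 0 < s ∧ ∃ P0 : ℝ, ∀ P : ℝ, P0 ≤ P →
      Ok (QP (fm P) (W P) g gr gc Hh lam eta (c1 * P) (2 * P ^ (1 - g / 5)) (MmP P)) ∧
      (QP (fm P) (W P) g gr gc Hh lam eta (c1 * P) (2 * P ^ (1 - g / 5)) (MmP P)).lam = lam ∧
      (QP (fm P) (W P) g gr gc Hh lam eta (c1 * P) (2 * P ^ (1 - g / 5)) (MmP P)).D0 = c1 * P ∧
      (QP (fm P) (W P) g gr gc Hh lam eta (c1 * P) (2 * P ^ (1 - g / 5)) (MmP P)).E1 ≤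
        A * P ^ (1 - s) ∧
      (QP (fm P) (W P) g gr gc Hh lam eta (c1 * P) (2 * P ^ (1 - g / 5)) (MmP P)).eta = eta ∧
      ((QP (fm P) (W P) g gr gc Hh lam eta (c1 * P) (2 * P ^ (1 - g / 5)) (MmP P)).Mm : ℝ) ≤
        Real.exp P := by
  obtain ⟨Pa, hOk⟩ := ok_QP hC1 k hg hg1 hgr
  obtain ⟨Pb, hWb⟩ := hW
  obtain ⟨Pc, hFc⟩ := hfm
  refine ⟨2, g / 5, by norm_num, by positivity, max (max Pa 2) (max Pb Pc), fun P hP => ?_⟩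
  have hPa : Pa ≤ P := (le_max_left _ _).trans ((le_max_left _ _).trans hP)
  have hP2 : 2 ≤ P := (le_max_right _ _).trans ((le_max_left _ _).trans hP)
  have hPb : Pb ≤ P := (le_max_left _ _).trans ((le_max_right _ _).trans hP)
  have hPc : Pc ≤ P := (le_max_right _ _).trans ((le_max_right _ _).trans hP)
  have hP0 : 0 < P := by linarith
  refine ⟨?_, rfl, rfl, le_rfl, rfl, MmP_le_exp hP2⟩
  exact hOk P hPa κ' (fm P) h lam r Hh R hA hk hkk (W P) (hWb P hPb) (MmP P) (hFc P hPc)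
    (MmP_ge P) eta (c1 * P) he0 he1 (by positivity) (mul_le_mul_of_nonneg_right hc1' hP0.le)

end Vale.Agent.P042.H972
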